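import Crest.Agent.PVb.R129S.CStar
import Crest.Agent.N111.Lat.Rep
import Crest.Prelude.Def_GroupVonNeumann

/-!
# Row 111: the left and right von Neumann algebras of a discrete group, trace, flip.

`L2 K`, `dl`, `lam`, `rho`, `pull`, `ent` come from `R129S`.  `LA K` is the commutant of the right
translations (it is `groupVonNeumann K`), `RA K` the commutant of the left translations.
-/

set_option autoImplicit false

noncomputable section

namespace Crest.Agent.N111.VN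

open scoped InnerProductSpace ComplexConjugate
open ContinuousLinearMap Crest.OperatorAlgebra Crest.Agent.R129S Filter Topology

section Equiv

variable {A B : Type}

theorem norm_pull_equiv (e : B ≃ A) (ξ : L2 A) : ‖pull e e.injective ξ‖ = ‖ξ‖ := by
  have h1 := hasSum_normSq (pull e e.injective ξ)
  have h2 := (e.hasSum_iff (f := fun x => ‖ξ x‖ ^ 2)).2 (hasSum_normSq ξ)
  exact (pow_left_inj₀ (norm_nonneg _) (norm_nonneg _) two_ne_zero).1 (h1.unique h2)

theorem pull_equiv_dl (e : B ≃ A) (x : A) : pull e e.injective (dl x) = dl (e.symm x) := by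
  have := pull_dl e e.injective (e.symm x)
  simpa using this

theorem norm_eq_of_equiv (e : B ≃ A) {ξ : L2 A} {η : L2 B} (h : ∀ y, ‖η y‖ = ‖ξ (e y)‖) :
    ‖η‖ = ‖ξ‖ := by
  have h1 := hasSum_normSq η
  simp_rw [h] at h1
  have h2 := (e.hasSum_iff (f := fun x => ‖ξ x‖ ^ 2)).2 (hasSum_normSq ξ)
  exact (pow_left_inj₀ (norm_nonneg _) (norm_nonneg _) two_ne_zero).1 (h1.unique h2)

theorem dense_span_dl : Dense (Submodule.span ℂ (Set.range (dl : A → L2 A)) : Set (L2 A)) := by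
  intro ξ
  refine mem_closure_of_tendsto (hasSum_dl ξ) (Eventually.of_forall fun s => ?_)
  exact Submodule.sum_mem _ fun x _ => Submodule.smul_mem _ _ (Submodule.subset_span ⟨x, rfl⟩)

end Equiv

variable {K : Type} [Group K]

theorem rho_mul (g h : K) : rho (g * h) = rho g * rho h :=
  ext_dl fun x => by rw [mul_apply_eq_comp, rho_dl, rho_dl, rho_dl, mul_inv_rev, mul_assoc]

theorem rho_one : rho (1 : K) = 1 := ext_dl fun x => by rw [rho_dl, inv_one, mul_one]; rfl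

theorem norm_lam (g : K) (ξ : L2 K) : ‖lam g ξ‖ = ‖ξ‖ := norm_pull_equiv (Equiv.mulLeft g⁻¹) ξ

theorem norm_rho (g : K) (ξ : L2 K) : ‖rho g ξ‖ = ‖ξ‖ := norm_pull_equiv (Equiv.mulRight g) ξ

variable (K) in
/-- the left regular representation -/
def lamR : URep K (L2 K) := URep.mk' lam lam_one lam_mul norm_lam

variable (K) in
/-- the right regular representation -/
def rhoR : URep K (L2 K) := URep.mk' rho rho_one rho_mul norm_rho

@[simp] theorem lamR_apply (g : K) : lamR K g = lam g := rfl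
@[simp] theorem rhoR_apply (g : K) : rhoR K g = rho g := rfl

theorem lam_rho (g h : K) (ξ : L2 K) : lam g (rho h ξ) = rho h (lam g ξ) :=
  congrArg (fun T : L2 K →L[ℂ] L2 K => T ξ) (commute_lam_rho g h).eq

variable (K) in
/-- the conjugation representation `λ_g ρ_g` -/
def adR : URep K (L2 K) := URep.mk' (fun g => lam g * rho g) (by rw [lam_one, rho_one, one_mul])
  (fun g h => by
    rw [lam_mul, rho_mul, mul_assoc, mul_assoc, ← mul_assoc (lam h), (commute_lam_rho h g).eq,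
      mul_assoc])
  (fun g v => by rw [mul_apply_eq_comp, norm_lam, norm_rho])

theorem adR_apply (g : K) : adR K g = lam g * rho g := rfl

theorem adR_dl (g x : K) : adR K g (dl x) = dl (g * x * g⁻¹) := by
  rw [adR_apply, mul_apply_eq_comp, rho_dl, lam_dl, mul_assoc]

theorem adR_apply_apply (g : K) (ξ : L2 K) (x : K) : adR K g ξ x = ξ (g⁻¹ * x * g) := rfl

variable (K) in
/-- the flip `δ_x ↦ δ_{x⁻¹}` -/
def flip : L2 K →L[ℂ] L2 K := pull (Equiv.inv K) (Equiv.inv K).injective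

theorem flip_apply (ξ : L2 K) (x : K) : flip K ξ x = ξ x⁻¹ := rfl

theorem flip_dl (x : K) : flip K (dl x) = dl x⁻¹ := pull_equiv_dl (Equiv.inv K) x

theorem flip_one : flip K (dl 1) = dl 1 := by rw [flip_dl, inv_one]

theorem norm_flip (ξ : L2 K) : ‖flip K ξ‖ = ‖ξ‖ := norm_pull_equiv _ ξ

@[simp] theorem flip_flip (ξ : L2 K) : flip K (flip K ξ) = ξ :=
  lp.ext (funext fun x => by rw [flip_apply, flip_apply, inv_inv])

theorem flip_mul_flip : flip K * flip K = 1 := ContinuousLinearMap.ext flip_flip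

theorem star_flip : star (flip K) = flip K :=
  ext_dl fun x => by rw [star_eq_adjoint, flip, adjoint_pull_dl]; exact (flip_dl x).symm

theorem flip_lam (g : K) : flip K * lam g = rho g * flip K :=
  ext_dl fun x => by
    rw [mul_apply_eq_comp, mul_apply_eq_comp, lam_dl, flip_dl, flip_dl, rho_dl, mul_inv_rev]

theorem flip_rho (g : K) : flip K * rho g = lam g * flip K :=
  ext_dl fun x => by
    rw [mul_apply_eq_comp, mul_apply_eq_comp, rho_dl, flip_dl, flip_dl, lam_dl, mul_inv_rev, inv_inv]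

/-- conjugation by the flip -/
def fc (T : L2 K →L[ℂ] L2 K) : L2 K →L[ℂ] L2 K := flip K * T * flip K

theorem fc_apply (T : L2 K →L[ℂ] L2 K) (ξ : L2 K) : fc T ξ = flip K (T (flip K ξ)) := rfl

@[simp] theorem fc_fc (T : L2 K →L[ℂ] L2 K) : fc (fc T) = T := by
  ext1 ξ; simp [fc_apply]

theorem fc_mul (S T : L2 K →L[ℂ] L2 K) : fc (S * T) = fc S * fc T := by
  ext1 ξ; simp [fc_apply]

theorem fc_one : fc (1 : L2 K →L[ℂ] L2 K) = 1 := by ext1 ξ; simp [fc_apply]

theorem fc_add (S T : L2 K →L[ℂ] L2 K) : fc (S + T) = fc S + fc T := by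
  ext1 ξ; simp [fc_apply]

theorem fc_sub (S T : L2 K →L[ℂ] L2 K) : fc (S - T) = fc S - fc T := by
  ext1 ξ; simp [fc_apply]

theorem fc_smul (c : ℂ) (T : L2 K →L[ℂ] L2 K) : fc (c • T) = c • fc T := by
  ext1 ξ; simp [fc_apply]

theorem fc_star (T : L2 K →L[ℂ] L2 K) : fc (star T) = star (fc T) := by
  simp only [fc, star_mul, star_flip, mul_assoc]

theorem fc_lam (g : K) : fc (lam g) = rho g := by
  rw [fc, flip_lam, mul_assoc, flip_mul_flip, mul_one]

theorem fc_rho (g : K) : fc (rho g) = lam g := by rw [← fc_lam, fc_fc]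

theorem norm_fc_le (T : L2 K →L[ℂ] L2 K) : ‖fc T‖ ≤ ‖T‖ :=
  opNorm_le_bound _ (norm_nonneg _) fun ξ => by
    rw [fc_apply, norm_flip]
    exact (T.le_opNorm _).trans_eq (by rw [norm_flip])

theorem norm_fc (T : L2 K →L[ℂ] L2 K) : ‖fc T‖ = ‖T‖ :=
  le_antisymm (norm_fc_le T) (by simpa using norm_fc_le (fc T))

theorem fc_one_apply (T : L2 K →L[ℂ] L2 K) : fc T (dl 1) = flip K (T (dl 1)) := by
  rw [fc_apply, flip_one]

/-- the commutant of a unitary representation -/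
def comm {H : Type*} [NormedAddCommGroup H] [InnerProductSpace ℂ H] [CompleteSpace H]
    {L : Type*} [Group L] (π : URep L H) : StarSubalgebra ℂ (H →L[ℂ] H) where
  carrier := {T | ∀ g, T * π g = π g * T}
  mul_mem' := fun {a b} ha hb g => by rw [mul_assoc, hb g, ← mul_assoc, ha g, mul_assoc]
  add_mem' := fun {a b} ha hb g => by rw [add_mul, mul_add, ha g, hb g]
  algebraMap_mem' := fun c g => Algebra.commutes c _
  star_mem' := fun {a} ha g => by
    have := congrArg star (ha g⁻¹)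
    rw [star_mul, star_mul, π.star_apply, inv_inv] at this
    exact this.symm

section Comm

variable {H : Type*} [NormedAddCommGroup H] [InnerProductSpace ℂ H] [CompleteSpace H]
  {L : Type*} [Group L] {π : URep L H}

theorem mem_comm {T : H →L[ℂ] H} : T ∈ comm π ↔ ∀ g, T * π g = π g * T := Iff.rfl

theorem comm_apply {T : H →L[ℂ] H} (hT : T ∈ comm π) (g : L) (ξ : H) : T (π g ξ) = π g (T ξ) :=
  congrArg (fun S : H →L[ℂ] H => S ξ) (hT g)

theorem isClosed_comm : IsClosed (comm π : Set (H →L[ℂ] H)) := by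
  have : (comm π : Set (H →L[ℂ] H)) = ⋂ g, {T | T * π g = π g * T} := by
    ext T; simp only [Set.mem_iInter]; rfl
  rw [this]
  exact isClosed_iInter fun g => isClosed_eq (by fun_prop) (by fun_prop)

theorem mem_comm_of_wtends {α : Type*} {l : Filter α} [l.NeBot] {T : α → H →L[ℂ] H}
    {T₀ : H →L[ℂ] H} (h : WTends l T T₀) (hT : ∀ᶠ a in l, T a ∈ comm π) : T₀ ∈ comm π := by
  intro g
  ext1 ξ
  refine ext_inner_left ℂ fun η => ?_
  have h1 := h η (π g ξ)
  have h2 := h (π g⁻¹ η) ξ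
  change ⟪η, T₀ (π g ξ)⟫_ℂ = ⟪η, π g (T₀ ξ)⟫_ℂ
  rw [π.inner_right]
  refine tendsto_nhds_unique_of_eventuallyEq h1 h2 (hT.mono fun a ha => ?_)
  simp only [comm_apply ha, π.inner_right]

theorem mem_comm_of_tendsto {α : Type*} {l : Filter α} [l.NeBot] {T : α → H →L[ℂ] H}
    {T₀ : H →L[ℂ] H} (h : ∀ ξ, Tendsto (fun a => T a ξ) l (𝓝 (T₀ ξ)))
    (hT : ∀ᶠ a in l, T a ∈ comm π) : T₀ ∈ comm π :=
  mem_comm_of_wtends (fun η ξ => (tendsto_const_nhds (x := η)).inner (h ξ)) hT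

theorem cfc_mem_comm {T : H →L[ℂ] H} (hT : T ∈ comm π) (f : ℝ → ℝ) : cfc f T ∈ comm π :=
  fun g => (Commute.cfc_real (hT g) f).eq

end Comm

variable (K) in
/-- the left von Neumann algebra: commutant of the right translations -/
abbrev LA : StarSubalgebra ℂ (L2 K →L[ℂ] L2 K) := comm (rhoR K)

variable (K) in
/-- the right von Neumann algebra: commutant of the left translations -/
abbrev RA : StarSubalgebra ℂ (L2 K →L[ℂ] L2 K) := comm (lamR K)

variable {S T : L2 K →L[ℂ] L2 K}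

theorem lam_mem_LA (g : K) : lam g ∈ LA K := fun h => (commute_lam_rho g h).eq

theorem rho_mem_RA (g : K) : rho g ∈ RA K := fun h => (commute_lam_rho h g).eq.symm

theorem fc_mem_RA (hT : T ∈ LA K) : fc T ∈ RA K := fun g => by
  have := congrArg fc (hT g)
  rwa [fc_mul, fc_mul, rhoR_apply, fc_rho] at this

theorem fc_mem_LA (hT : T ∈ RA K) : fc T ∈ LA K := fun g => by
  have := congrArg fc (hT g)
  rwa [fc_mul, fc_mul, lamR_apply, fc_lam] at this

theorem LA_dl (hT : T ∈ LA K) (x : K) : T (dl x) = rho x⁻¹ (T (dl 1)) := by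
  rw [← rhoR_apply, ← comm_apply hT, rhoR_apply, rho_dl, inv_inv, one_mul]

theorem RA_dl (hT : T ∈ RA K) (x : K) : T (dl x) = lam x (T (dl 1)) := by
  rw [← lamR_apply, ← comm_apply hT, lamR_apply, lam_dl, mul_one]

theorem LA_ent (hT : T ∈ LA K) (y x : K) : T (dl x) y = T (dl 1) (y * x⁻¹) := by
  rw [LA_dl hT, rho_apply]

theorem RA_ent (hT : T ∈ RA K) (y x : K) : T (dl x) y = T (dl 1) (x⁻¹ * y) := by
  rw [RA_dl hT, lam_apply]

theorem star_dl_apply {A : Type} (T : L2 A →L[ℂ] L2 A) (y x : A) :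
    star T (dl x) y = conj (T (dl y) x) := ent_adjoint T y x

theorem LA_star_one (hT : T ∈ LA K) (x : K) : star T (dl 1) x = conj (T (dl 1) x⁻¹) := by
  rw [star_dl_apply, LA_ent hT, one_mul]

theorem RA_star_one (hT : T ∈ RA K) (x : K) : star T (dl 1) x = conj (T (dl 1) x⁻¹) := by
  rw [star_dl_apply, RA_ent hT, mul_one]

theorem LA_norm_star (hT : T ∈ LA K) : ‖star T (dl 1)‖ = ‖T (dl 1)‖ :=
  norm_eq_of_equiv (Equiv.inv K) fun y => by rw [LA_star_one hT, RCLike.norm_conj]; rfl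

theorem RA_norm_star (hT : T ∈ RA K) : ‖star T (dl 1)‖ = ‖T (dl 1)‖ :=
  norm_eq_of_equiv (Equiv.inv K) fun y => by rw [RA_star_one hT, RCLike.norm_conj]; rfl

theorem LA_ext (hS : S ∈ LA K) (hT : T ∈ LA K) (h : S (dl 1) = T (dl 1)) : S = T :=
  ext_dl fun x => by rw [LA_dl hS, LA_dl hT, h]

theorem RA_ext (hS : S ∈ RA K) (hT : T ∈ RA K) (h : S (dl 1) = T (dl 1)) : S = T :=
  ext_dl fun x => by rw [RA_dl hS, RA_dl hT, h]

theorem LA_norm_mul (hS : S ∈ LA K) (hT : T ∈ LA K) : ‖S (T (dl 1))‖ ≤ ‖T‖ * ‖S (dl 1)‖ := by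
  rw [← mul_apply_eq_comp, ← LA_norm_star (mul_mem hS hT), star_mul, mul_apply_eq_comp,
    ← LA_norm_star hS, ← norm_star T]
  exact le_opNorm _ _

theorem RA_norm_mul (hS : S ∈ RA K) (hT : T ∈ RA K) : ‖S (T (dl 1))‖ ≤ ‖T‖ * ‖S (dl 1)‖ := by
  rw [← mul_apply_eq_comp, ← RA_norm_star (mul_mem hS hT), star_mul, mul_apply_eq_comp,
    ← RA_norm_star hS, ← norm_star T]
  exact le_opNorm _ _

theorem hasSum_mul_ent {A : Type} (S T : L2 A →L[ℂ] L2 A) (z x : A) :
    HasSum (fun y => S (dl y) z * T (dl x) y) (S (T (dl x)) z) := hasSum_ent S (T (dl x)) z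

/-- the commutation theorem -/
theorem LA_RA_comm (hT : T ∈ LA K) (hS : S ∈ RA K) : T * S = S * T := by
  refine ext_dl fun g => lp.ext (funext fun h => ?_)
  have h1 := hasSum_mul_ent T S h g
  have h2 := hasSum_mul_ent S T h g
  let e : K ≃ K := (Equiv.inv K).trans ((Equiv.mulLeft h).trans (Equiv.mulRight g))
  have h3 := (e.hasSum_iff (f := fun y => S (dl y) h * T (dl g) y)).2 h2
  have h4 : (fun y => T (dl y) h * S (dl g) y) = (fun y => S (dl y) h * T (dl g) y) ∘ e := by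
    funext y
    change _ = S (dl (h * y⁻¹ * g)) h * T (dl g) (h * y⁻¹ * g)
    rw [LA_ent hT h y, RA_ent hS y g, RA_ent hS h, LA_ent hT _ g, mul_comm]
    congr 2 <;> group
  rw [h4] at h1
  exact h1.unique h3

theorem mem_centralizer_left : S ∈ Set.centralizer (leftTranslations K) ↔ S ∈ RA K := by
  constructor
  · intro h g
    exact (h _ (mem_leftTranslations.2 ⟨g, rfl⟩)).symm
  · intro h T hT
    obtain ⟨g, rfl⟩ := mem_leftTranslations.1 hT
    exact (h g).symm

theorem mem_gvn : T ∈ groupVonNeumann K ↔ T ∈ LA K := by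
  constructor
  · intro h g
    exact (h _ (mem_centralizer_left.2 (rho_mem_RA g))).symm
  · intro h S hS
    exact (LA_RA_comm h (mem_centralizer_left.1 hS)).symm

theorem gvn_eq : groupVonNeumann K = (LA K : Set (L2 K →L[ℂ] L2 K)) := Set.ext fun _ => mem_gvn

/-- the canonical trace -/
def tr (T : L2 K →L[ℂ] L2 K) : ℂ := T (dl 1) 1

theorem tr_eq (T : L2 K →L[ℂ] L2 K) : tr T = ⟪dl 1, T (dl 1)⟫_ℂ := (inner_dl _ _).symm

theorem tr_add (S T : L2 K →L[ℂ] L2 K) : tr (S + T) = tr S + tr T := rfl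
theorem tr_sub (S T : L2 K →L[ℂ] L2 K) : tr (S - T) = tr S - tr T := rfl
theorem tr_smul (c : ℂ) (T : L2 K →L[ℂ] L2 K) : tr (c • T) = c * tr T := rfl
theorem tr_one : tr (1 : L2 K →L[ℂ] L2 K) = 1 := dl_self _
theorem tr_zero : tr (0 : L2 K →L[ℂ] L2 K) = 0 := rfl

theorem tr_sum {ι : Type*} (s : Finset ι) (T : ι → L2 K →L[ℂ] L2 K) :
    tr (∑ i ∈ s, T i) = ∑ i ∈ s, tr (T i) := ent_sum s T 1 1

theorem tr_star (T : L2 K →L[ℂ] L2 K) : tr (star T) = conj (tr T) := star_dl_apply T 1 1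

theorem tr_star_mul (S T : L2 K →L[ℂ] L2 K) : tr (star S * T) = ⟪S (dl 1), T (dl 1)⟫_ℂ := by
  rw [tr_eq, mul_apply_eq_comp, star_eq_adjoint, adjoint_inner_right]

theorem tr_star_mul_self (T : L2 K →L[ℂ] L2 K) : tr (star T * T) = (‖T (dl 1)‖ ^ 2 : ℝ) := by
  rw [tr_star_mul, inner_self_eq_norm_sq_to_K]; simp

theorem norm_tr_le (T : L2 K →L[ℂ] L2 K) : ‖tr T‖ ≤ ‖T (dl 1)‖ := by
  rw [tr_eq]
  exact (norm_inner_le_norm _ _).trans_eq (by rw [norm_dl, one_mul])

theorem norm_one_le (T : L2 K →L[ℂ] L2 K) : ‖T (dl 1)‖ ≤ ‖T‖ :=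
  (T.le_opNorm _).trans_eq (by rw [norm_dl, mul_one])

theorem tr_fc (T : L2 K →L[ℂ] L2 K) : tr (fc T) = tr T := by
  rw [tr, fc_one_apply, flip_apply, inv_one, tr]

theorem tr_lam {g : K} (hg : g ≠ 1) : tr (lam g) = 0 := by
  rw [tr, lam_dl, mul_one, dl_ne hg.symm]

theorem LA_tr_comm (hS : S ∈ LA K) (hT : T ∈ LA K) : tr (S * T) = tr (T * S) := by
  have h1 := hasSum_mul_ent S T 1 1
  have h2 := hasSum_mul_ent T S 1 1
  have h3 := ((Equiv.inv K).hasSum_iff (f := fun y => T (dl y) 1 * S (dl 1) y)).2 h2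
  have h4 : (fun y => S (dl y) 1 * T (dl 1) y)
      = (fun y => T (dl y) 1 * S (dl 1) y) ∘ (Equiv.inv K) := by
    funext y
    simp only [Function.comp, Equiv.inv_apply]
    rw [LA_ent hS 1 y, LA_ent hT 1 y⁻¹, one_mul, one_mul, inv_inv, mul_comm]
  rw [h4] at h1
  exact h1.unique h3

theorem RA_tr_comm (hS : S ∈ RA K) (hT : T ∈ RA K) : tr (S * T) = tr (T * S) := by
  rw [← tr_fc, fc_mul, LA_tr_comm (fc_mem_LA hS) (fc_mem_LA hT), ← fc_mul, tr_fc]

theorem conj_one_LA (hT : T ∈ LA K) (g : K) :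
    (lam g * T * lam g⁻¹) (dl 1) = adR K g (T (dl 1)) := by
  rw [mul_apply_eq_comp, mul_apply_eq_comp, lam_dl, mul_one, LA_dl hT, inv_inv]; rfl

theorem conj_one_RA (hT : T ∈ RA K) (g : K) :
    (rho g * T * rho g⁻¹) (dl 1) = adR K g (T (dl 1)) := by
  rw [mul_apply_eq_comp, mul_apply_eq_comp, rho_dl, one_mul, inv_inv, RA_dl hT, ← lam_rho]; rfl

end Crest.Agent.N111.VN
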