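import Crest.Agent.N111.VN.End

/-!
# Row 111, von Neumann toolbox VII: the embedding `L(Λ) → L(K)` along an injective homomorphism.
-/

set_option autoImplicit false

noncomputable section

namespace Crest.Agent.N111

open scoped InnerProductSpace ComplexConjugate ENNReal ComplexOrder
open ContinuousLinearMap Crest.OperatorAlgebra Filter Topology

theorem amp_bound {Q A Y : Type*} (e : Q × A ≃ Y) (x : Ell2 A →L[ℂ] Ell2 A) (ξ : Ell2 Y)
    {g : Y → ℂ} (hg : ∀ q a, g (e (q, a)) =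
      x (pull (fun a => e (q, a)) (e.injective.comp (Prod.mk_right_injective q)) ξ) a)
    (F : Finset Y) : ∑ y ∈ F, ‖g y‖ ^ 2 ≤ (‖x‖ * ‖ξ‖) ^ 2 := by
  set sl : Q → Ell2 A := fun q =>
    pull (fun a => e (q, a)) (e.injective.comp (Prod.mk_right_injective q)) ξ
  have h1 : HasSum (fun q => ‖sl q‖ ^ 2) (‖ξ‖ ^ 2) :=
    (e.hasSum_iff.2 (hasSum_normSq ξ)).prod_fiberwise fun q => hasSum_normSq (sl q)
  have h2 : ∀ q, HasSum (fun a => ‖g (e (q, a))‖ ^ 2) (‖x (sl q)‖ ^ 2) := fun q => by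
    simpa only [hg] using hasSum_normSq (x (sl q))
  have h3 : ∀ q, ‖x (sl q)‖ ^ 2 ≤ ‖x‖ ^ 2 * ‖sl q‖ ^ 2 := fun q => by
    rw [← mul_pow]; exact pow_le_pow_left₀ (norm_nonneg _) (x.le_opNorm _) 2
  have h4 : Summable fun q => ‖x (sl q)‖ ^ 2 :=
    Summable.of_nonneg_of_le (fun _ => sq_nonneg _) h3 (h1.summable.mul_left _)
  have h5 : Summable fun p : Q × A => ‖g (e p)‖ ^ 2 :=
    (summable_prod_of_nonneg fun _ => sq_nonneg _).2
      ⟨fun q => (h2 q).summable, by simpa only [(h2 _).tsum_eq] using h4⟩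
  have h6 := h5.hasSum.prod_fiberwise h2
  refine (sum_le_hasSum F (fun _ _ => sq_nonneg _)
    ((e.hasSum_iff (f := fun y => ‖g y‖ ^ 2)).1 h5.hasSum)).trans ?_
  rw [mul_pow]
  exact hasSum_le h3 h6 (h1.mul_left _)

variable {Λ K : Type*} [Group Λ] [Group K]

theorem wtends_of_hat_LA {α : Type*} (U : Ultrafilter α) {y : α → Ell2 K →L[ℂ] Ell2 K}
    (hy : ∀ a, y a ∈ LA K) {C : ℝ} (hC : ∀ a, ‖y a‖ ≤ C) {y₀ : Ell2 K →L[ℂ] Ell2 K}
    (h₀ : y₀ ∈ LA K) (h : Tendsto (fun a => y a (dt 1)) U (𝓝 (y₀ (dt 1)))) : WTends U y y₀ := by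
  obtain ⟨b, -, hb⟩ := exists_wtends U (Eventually.of_forall hC)
  rwa [LA_ext ((rho K).mem_comm_of_wtends hb (Eventually.of_forall hy)) h₀
    (ext_inner_left ℂ fun v => tendsto_nhds_unique (hb v _) (tendsto_const_nhds.inner h))] at hb

theorem wtends_of_hat_RA {α : Type*} (U : Ultrafilter α) {y : α → Ell2 K →L[ℂ] Ell2 K}
    (hy : ∀ a, y a ∈ RA K) {C : ℝ} (hC : ∀ a, ‖y a‖ ≤ C) {y₀ : Ell2 K →L[ℂ] Ell2 K}
    (h₀ : y₀ ∈ RA K) (h : Tendsto (fun a => y a (dt 1)) U (𝓝 (y₀ (dt 1)))) : WTends U y y₀ := by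
  obtain ⟨b, -, hb⟩ := exists_wtends U (Eventually.of_forall hC)
  rwa [RA_ext ((lam K).mem_comm_of_wtends hb (Eventually.of_forall hy)) h₀
    (ext_inner_left ℂ fun v => tendsto_nhds_unique (hb v _) (tendsto_const_nhds.inner h))] at hb

section emb

variable (f : Λ →* K) (hf : Function.Injective f)

/-- slices along the cosets of the image -/
def sl (y : K) : Ell2 K →L[ℂ] Ell2 Λ :=
  pull (fun s => f s * y) ((mul_left_injective y).comp hf)

@[simp] theorem sl_apply (y : K) (ξ : Ell2 K) (s : Λ) : sl f hf y ξ s = ξ (f s * y) := rfl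

include hf in
theorem exists_coset_equiv : ∃ (e : Quotient (QuotientGroup.rightRel f.range) × Λ ≃ K),
    ∀ q s, e (q, s) = f s * q.out := by
  refine ⟨Equiv.ofBijective (fun p => f p.2 * p.1.out) ⟨?_, fun y => ?_⟩, fun _ _ => rfl⟩
  · rintro ⟨q, s⟩ ⟨q', s'⟩ h
    simp only at h
    obtain rfl : q = q' := by
      rw [← q.out_eq, ← q'.out_eq]
      refine Quotient.sound (QuotientGroup.rightRel_apply.2 ⟨s'⁻¹ * s, ?_⟩)
      rw [map_mul, map_inv, eq_mul_inv_iff_mul_eq, mul_assoc, h, inv_mul_cancel_left]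
    rw [hf (mul_right_cancel h)]
  · obtain ⟨s, hs⟩ := QuotientGroup.rightRel_apply.1
      (Quotient.mk_out (s := QuotientGroup.rightRel f.range) y)
    exact ⟨(⟦y⟧, s), by simp only [hs, inv_mul_cancel_right]⟩

theorem emb_bound {x : Ell2 Λ →L[ℂ] Ell2 Λ} (hx : x ∈ LA Λ) (ξ : Ell2 K) (F : Finset K) :
    ∑ y ∈ F, ‖x (sl f hf y ξ) 1‖ ^ 2 ≤ (‖x‖ * ‖ξ‖) ^ 2 := by
  obtain ⟨e, he⟩ := exists_coset_equiv f hf
  refine amp_bound e x ξ (g := fun y => x (sl f hf y ξ) 1) (fun q s => ?_) F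
  have : sl f hf (e (q, s)) ξ = rho Λ s
      (pull (fun a => e (q, a)) (e.injective.comp (Prod.mk_right_injective q)) ξ) :=
    l2_ext fun a => by simp [he, mul_assoc]
  simp only [this, ← URep.comm_apply hx, rho_apply, one_mul]

open Classical in
/-- the embedding `L(Λ) → L(K)`, `λ_s ↦ λ_{f s}` (zero outside `L(Λ)`) -/
def emb (x : Ell2 Λ →L[ℂ] Ell2 Λ) : Ell2 K →L[ℂ] Ell2 K :=
  if hx : x ∈ LA Λ then
    LinearMap.mkContinuous
      { toFun := fun ξ => mkL2 (fun y => x (sl f hf y ξ) 1) (emb_bound f hf hx ξ)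
        map_add' := fun _ _ => l2_ext fun y => by simp
        map_smul' := fun _ _ => l2_ext fun y => by simp } ‖x‖
      (fun ξ => norm_le_of_sum _ (by positivity) (emb_bound f hf hx ξ))
  else 0

variable {x y : Ell2 Λ →L[ℂ] Ell2 Λ}

theorem emb_apply (hx : x ∈ LA Λ) (ξ : Ell2 K) (k : K) : emb f hf x ξ k = x (sl f hf k ξ) 1 := by
  rw [emb, dif_pos hx]; rfl

theorem norm_emb_le (x : Ell2 Λ →L[ℂ] Ell2 Λ) : ‖emb f hf x‖ ≤ ‖x‖ := by
  rw [emb]
  split_ifs
  · exact LinearMap.mkContinuous_norm_le _ (norm_nonneg _) _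
  · simp

theorem emb_mem (x : Ell2 Λ →L[ℂ] Ell2 Λ) : emb f hf x ∈ LA K := by
  by_cases hx : x ∈ LA Λ
  · intro k
    ext1 ξ
    refine l2_ext fun z => ?_
    have : sl f hf (z * k) ξ = sl f hf z (rho K k ξ) := l2_ext fun s => by simp [mul_assoc]
    simp [emb_apply f hf hx, this]
  · rw [emb, dif_neg hx]; exact zero_mem _

theorem emb_hat (hx : x ∈ LA Λ) : emb f hf x (dt 1) = push f hf (x (dt 1)) := by
  refine l2_ext fun k => ?_
  rw [emb_apply f hf hx]
  by_cases hk : ∃ s, f s = k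
  · obtain ⟨s, rfl⟩ := hk
    have : sl f hf (f s) (dt 1) = dt s⁻¹ := l2_ext fun r => by
      classical
      rw [sl_apply, ← map_mul, dt_apply, dt_apply]
      exact if_congr (by rw [map_eq_one_iff f hf, mul_eq_one_iff_eq_inv]) rfl rfl
    rw [this, push_apply, LA_dt hx]; simp
  · push Not at hk
    have : sl f hf k (dt 1) = 0 := l2_ext fun r =>
      dt_ne fun h => hk r⁻¹ (by rw [map_inv, inv_eq_of_mul_eq_one_right h])
    rw [this, push_apply_of_not _ _ _ hk]; simp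

theorem rho_push (s : Λ) (ξ : Ell2 Λ) : rho K (f s) (push f hf ξ) = push f hf (rho Λ s ξ) := by
  have : rho K (f s) ∘L push f hf = push f hf ∘L rho Λ s := ext_dt fun r => by simp
  exact congrArg (fun T : Ell2 Λ →L[ℂ] Ell2 K => T ξ) this

theorem Jc_push (ξ : Ell2 Λ) : Jc (push f hf ξ) = push f hf (Jc ξ) := by
  refine l2_ext fun k => ?_
  by_cases hk : ∃ s, f s = k
  · obtain ⟨s, rfl⟩ := hk
    rw [Jc_apply, ← map_inv, push_apply, push_apply, Jc_apply]
  · push Not at hk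
    rw [Jc_apply, push_apply_of_not _ _ _ hk, push_apply_of_not, map_zero]
    exact fun s h => hk s⁻¹ (by rw [map_inv, h, inv_inv])

theorem emb_push (hx : x ∈ LA Λ) (ξ : Ell2 Λ) : emb f hf x (push f hf ξ) = push f hf (x ξ) := by
  have : emb f hf x ∘L push f hf = push f hf ∘L x := ext_dt fun r => by
    simp only [comp_apply, push_dt]
    rw [LA_dt (emb_mem f hf x), emb_hat f hf hx, ← map_inv, rho_push, ← LA_dt hx]
  exact congrArg (fun T : Ell2 Λ →L[ℂ] Ell2 K => T ξ) this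

theorem emb_mul (hx : x ∈ LA Λ) (hy : y ∈ LA Λ) :
    emb f hf (x * y) = emb f hf x * emb f hf y :=
  LA_ext (emb_mem _ _ _) (mul_mem (emb_mem _ _ _) (emb_mem _ _ _)) (by
    rw [mul_apply_eq_comp, emb_hat f hf hy, emb_push f hf hx, emb_hat f hf (mul_mem hx hy)]; rfl)

theorem emb_add (hx : x ∈ LA Λ) (hy : y ∈ LA Λ) :
    emb f hf (x + y) = emb f hf x + emb f hf y :=
  LA_ext (emb_mem _ _ _) (add_mem (emb_mem _ _ _) (emb_mem _ _ _)) (by
    simp [emb_hat f hf hx, emb_hat f hf hy, emb_hat f hf (add_mem hx hy)])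

theorem emb_smul (c : ℂ) (hx : x ∈ LA Λ) : emb f hf (c • x) = c • emb f hf x :=
  LA_ext (emb_mem _ _ _) (SMulMemClass.smul_mem _ (emb_mem _ _ _)) (by
    simp [emb_hat f hf hx, emb_hat f hf (SMulMemClass.smul_mem c hx)])

theorem emb_zero : emb f hf 0 = 0 := by simpa using emb_smul f hf 0 (zero_mem (LA Λ))

theorem emb_star (hx : x ∈ LA Λ) : emb f hf (star x) = star (emb f hf x) :=
  LA_ext (emb_mem _ _ _) (star_mem (emb_mem _ _ _)) (by
    rw [star_hat_LA (emb_mem _ _ _), emb_hat f hf hx, emb_hat f hf (star_mem hx), Jc_push,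
      star_hat_LA hx])

@[simp] theorem emb_lam (s : Λ) : emb f hf (lam Λ s) = lam K (f s) :=
  LA_ext (emb_mem _ _ _) (lam_mem_LA _) (by simp [emb_hat f hf (lam_mem_LA s)])

@[simp] theorem emb_one : emb f hf 1 = 1 := by simpa using emb_lam f hf 1

theorem tau_emb (hx : x ∈ LA Λ) : tau (emb f hf x) = tau x := by
  rw [tau, emb_hat f hf hx, ← map_one f, push_apply, tau]

end emb

/-- a unitary representation built from a homomorphism into the unitaries -/
def URep.ofStar {L H : Type*} [Group L] [NormedAddCommGroup H] [InnerProductSpace ℂ H]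
    [CompleteSpace H] (u : L → H →L[ℂ] H) (h1 : u 1 = 1) (hmul : ∀ g h, u (g * h) = u g * u h)
    (hs : ∀ g, star (u g) = u g⁻¹) : URep L H :=
  URep.mk' u h1 hmul fun g v => by
    have : ⟪u g v, u g v⟫_ℂ = ⟪v, v⟫_ℂ := by
      rw [← adjoint_inner_right, ← star_eq_adjoint, hs, ← mul_apply_eq_comp, ← hmul,
        inv_mul_cancel, h1, one_apply_eq_self]
    rw [norm_eq_sqrt_re_inner (𝕜 := ℂ), this, ← norm_eq_sqrt_re_inner]

@[simp] theorem URep.ofStar_apply {L H : Type*} [Group L] [NormedAddCommGroup H]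
    [InnerProductSpace ℂ H] [CompleteSpace H] (u : L → H →L[ℂ] H) (h1 hmul hs) (g : L) :
    URep.ofStar u h1 hmul hs g = u g := rfl

/-- `J σ J` -/
def URep.jj {L : Type*} [Group L] (σ : URep L (Ell2 K)) : URep L (Ell2 K) :=
  URep.ofStar (fun g => N111.jj (σ g)) (by simp) (fun g h => by rw [map_mul, jj_mul])
    fun g => by rw [← jj_star, σ.star_apply]

@[simp] theorem URep.jj_apply {L : Type*} [Group L] (σ : URep L (Ell2 K)) (g : L) :
    σ.jj g = N111.jj (σ g) := rfl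

theorem commute_jj {S T : Ell2 K →L[ℂ] Ell2 K} (h : Commute S T) : Commute (jj S) (jj T) := by
  rw [Commute, SemiconjBy, ← jj_mul, h.eq, jj_mul]

/-- a group of unitaries generating `L(Λ)` -/
structure IsGen {L : Type*} [Group L] (v : URep L (Ell2 Λ)) : Prop where
  mem : ∀ γ, v γ ∈ LA Λ
  gen : ∀ T ∈ v.comm, T ∈ RA Λ

theorem isGen_lam : IsGen (lam Λ) := ⟨lam_mem_LA, fun _ h => h⟩

namespace IsGen

variable {L : Type*} [Group L] {v : URep L (Ell2 Λ)} (hv : IsGen v)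
  (f : Λ →* K) (hf : Function.Injective f) {x : Ell2 Λ →L[ℂ] Ell2 Λ}
include hv

theorem span_le {w : Ell2 Λ →L[ℂ] Ell2 Λ} (hw : w ∈ v.span) : w ∈ LA Λ :=
  URep.span_induction (p := (· ∈ LA Λ)) (zero_mem _) hv.mem (fun _ _ => add_mem)
    (fun c _ => SMulMemClass.smul_mem c) hw

/-- the embedded representation -/
def embRep : URep L (Ell2 K) :=
  URep.ofStar (fun γ => emb f hf (v γ)) (by simp)
    (fun g h => by rw [map_mul, emb_mul f hf (hv.mem _) (hv.mem _)])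
    fun g => by rw [← emb_star f hf (hv.mem _), v.star_apply]

@[simp] theorem embRep_apply (γ : L) : hv.embRep f hf γ = emb f hf (v γ) := rfl

theorem exists_seq (hx : x ∈ LA Λ) : ∃ w : ℕ → Ell2 Λ →L[ℂ] Ell2 Λ, (∀ n, w n ∈ v.span) ∧
    (∀ n, ‖w n‖ ≤ ‖x‖ + 1) ∧ Tendsto (fun n => w n (dt 1)) atTop (𝓝 (x (dt 1))) := by
  set c : ℝ := ‖x‖ + 1
  have hc : 0 < c := by positivity
  have h1 : ‖((c⁻¹ : ℝ) : ℂ) • x‖ ≤ 1 := by
    rw [norm_smul, Complex.norm_real, Real.norm_of_nonneg (inv_pos.2 hc).le, inv_mul_le_iff₀ hc]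
    simp [c]
  choose w hw hw1 hw2 using fun n : ℕ => v.kaplansky (m := ((c⁻¹ : ℝ) : ℂ) • x)
    (fun T hT => (LA_comm_RA (SMulMemClass.smul_mem _ hx) (hv.gen T hT)).symm) h1 {dt 1}
    (Nat.one_div_pos_of_nat (α := ℝ) (n := n))
  refine ⟨fun n => (c : ℂ) • w n, fun n => SMulMemClass.smul_mem _ (hw n), fun n => ?_, ?_⟩
  · rw [norm_smul, Complex.norm_real, Real.norm_of_nonneg hc.le]
    exact mul_le_of_le_one_right hc.le (hw1 n)
  · have h2 : Tendsto (fun n => w n (dt 1)) atTop (𝓝 ((((c⁻¹ : ℝ) : ℂ) • x) (dt 1))) :=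
      tendsto_iff_norm_sub_tendsto_zero.2 (squeeze_zero (fun _ => norm_nonneg _)
        (fun n => (hw2 n _ (Finset.mem_singleton_self _)).1.le)
        tendsto_one_div_add_atTop_nhds_zero_nat)
    have h3 := h2.const_smul (c : ℂ)
    rwa [smul_apply, smul_smul, ← Complex.ofReal_mul, mul_inv_cancel₀ hc.ne', Complex.ofReal_one,
      one_smul] at h3

theorem exists_seq_emb (hx : x ∈ LA Λ) : ∃ w : ℕ → Ell2 Λ →L[ℂ] Ell2 Λ, (∀ n, w n ∈ v.span) ∧
    WTends (hyperfilter ℕ) (fun n => emb f hf (w n)) (emb f hf x) ∧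
    WTends (hyperfilter ℕ) (fun n => Rm (emb f hf (w n))) (Rm (emb f hf x)) := by
  obtain ⟨w, hw, hw1, hw2⟩ := hv.exists_seq hx
  have h : Tendsto (fun n => emb f hf (w n) (dt 1)) (hyperfilter ℕ) (𝓝 (emb f hf x (dt 1))) := by
    simp only [emb_hat f hf hx, emb_hat f hf (hv.span_le (hw _))]
    exact (((push f hf).continuous.tendsto _).comp hw2).mono_left Nat.hyperfilter_le_atTop
  have hb : ∀ n, ‖emb f hf (w n)‖ ≤ ‖x‖ + 1 := fun n => (norm_emb_le _ _ _).trans (hw1 n)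
  refine ⟨w, hw, wtends_of_hat_LA _ (fun _ => emb_mem _ _ _) hb (emb_mem _ _ _) h,
    wtends_of_hat_RA _ (fun _ => Rm_mem_RA (emb_mem _ _ _)) (by simpa using hb)
      (Rm_mem_RA (emb_mem _ _ _)) ?_⟩
  simpa only [Rm_hat_LA (emb_mem _ _ _)] using h

theorem emb_induction {p : (Ell2 K →L[ℂ] Ell2 K) → Prop} (h0 : p 0)
    (hg : ∀ γ, p (emb f hf (v γ))) (hadd : ∀ S T, p S → p T → p (S + T))
    (hsmul : ∀ (c : ℂ) S, p S → p (c • S)) {w : Ell2 Λ →L[ℂ] Ell2 Λ} (hw : w ∈ v.span) :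
    p (emb f hf w) :=
  (URep.span_induction (p := fun w => w ∈ LA Λ ∧ p (emb f hf w))
    ⟨zero_mem _, by rwa [emb_zero]⟩ (fun γ => ⟨hv.mem γ, hg γ⟩)
    (fun _ _ h1 h2 => ⟨add_mem h1.1 h2.1, by rw [emb_add f hf h1.1 h2.1]; exact hadd _ _ h1.2 h2.2⟩)
    (fun c _ h => ⟨SMulMemClass.smul_mem c h.1, by rw [emb_smul f hf c h.1]; exact hsmul _ _ h.2⟩)
    hw).2

theorem commute_emb {T : Ell2 K →L[ℂ] Ell2 K} (hT : ∀ γ, Commute T (emb f hf (v γ)))
    (hx : x ∈ LA Λ) : Commute T (emb f hf x) := by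
  obtain ⟨w, hw, h, -⟩ := hv.exists_seq_emb f hf hx
  have hc : ∀ n, T * emb f hf (w n) = emb f hf (w n) * T := fun n =>
    hv.emb_induction f hf (p := Commute T) (Commute.zero_right T) hT
      (fun _ _ => Commute.add_right) (fun c _ h => h.smul_right c) (hw n)
  exact WTends.unique (h.const_mul T) (by simpa only [hc] using h.mul_const T)

theorem commute_jj_emb {T : Ell2 K →L[ℂ] Ell2 K} (hT : ∀ γ, Commute T (jj (emb f hf (v γ))))
    (hx : x ∈ LA Λ) : Commute T (jj (emb f hf x)) := by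
  simpa using commute_jj (hv.commute_emb f hf (T := jj T)
    (fun γ => by simpa using commute_jj (hT γ)) hx)

theorem central {η : Ell2 K} (h : ∀ γ, emb f hf (v γ) η = Rm (emb f hf (v γ)) η)
    (hx : x ∈ LA Λ) : emb f hf x η = Rm (emb f hf x) η := by
  obtain ⟨w, hw, h1, h2⟩ := hv.exists_seq_emb f hf hx
  have hc : ∀ n, emb f hf (w n) η = Rm (emb f hf (w n)) η := fun n =>
    hv.emb_induction f hf (p := fun S => S η = Rm S η) (by simp) h
      (fun _ _ e1 e2 => by simp [Rm_add, e1, e2]) (fun c _ e => by simp [Rm_smul, e]) (hw n)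
  exact ext_inner_left ℂ fun ζ => tendsto_nhds_unique (h1 ζ η) (by simpa only [hc] using h2 ζ η)

end IsGen

theorem commute_emb (f : Λ →* K) (hf : Function.Injective f) {T : Ell2 K →L[ℂ] Ell2 K}
    (hT : ∀ s, Commute T (lam K (f s))) {x : Ell2 Λ →L[ℂ] Ell2 Λ} (hx : x ∈ LA Λ) :
    Commute T (emb f hf x) :=
  isGen_lam.commute_emb f hf (by simpa using hT) hx

theorem commute_jj_emb (f : Λ →* K) (hf : Function.Injective f) {T : Ell2 K →L[ℂ] Ell2 K}
    (hT : ∀ s, Commute T (rho K (f s))) {x : Ell2 Λ →L[ℂ] Ell2 Λ} (hx : x ∈ LA Λ) :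
    Commute T (jj (emb f hf x)) :=
  isGen_lam.commute_jj_emb f hf (by simpa using hT) hx

/-- an isomorphism `L(Λ) ≅ L(K)` gives a generating regular representation of `K` in `L(Λ)` -/
theorem Iso.exists_gen (θ : Iso Λ K) (hp : θ.p = 1) (hΛ : IsICC Λ) :
    ∃ v : URep K (Ell2 Λ), IsGen v ∧ IsReg v (dt 1) := by
  have ht : θ.t = 1 := by simp [Iso.t, hp]
  let u : URep Λ (Ell2 K) := URep.ofStar θ.u (θ.u_one.trans hp) θ.u_mul θ.star_u
  have hu : IsReg u (dt 1) := by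
    refine ⟨⟨fun s => by simp, fun s r h => ?_⟩, fun w hw => eq_zero_of_inner_dt fun k => ?_⟩
    · simp [u, θ.inner_u_hat hΛ, dt_ne h]
    · obtain ⟨x, hx, e⟩ := θ.surj (lam_mem_LA k)
      have h1 := (innerSL ℂ w).hasSum (θ.hasSum_hat hΛ hx)
      have h2 : ∀ s, ⟪w, θ.u s (dt 1)⟫_ℂ = 0 := fun s => inner_eq_zero_symm.1 (hw s)
      simp only [innerSL_apply_apply, inner_smul_right, h2, mul_zero, e, hp, mul_one, one_mul,
        lam_dt] at h1
      exact inner_eq_zero_symm.1 (h1.unique hasSum_zero)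
  have hW : ∀ {x}, x ∈ LA Λ → ∀ ξ, hu.W (x ξ) = θ.φ x (hu.W ξ) := by
    intro x hx ξ
    have h1 : ∀ {x}, x ∈ LA Λ → hu.W (x (dt 1)) = θ.φ x (dt 1) := fun hx =>
      (hasSum_syn hu.on _).unique (θ.hasSum_hat hΛ hx)
    have : (hu.W : Ell2 Λ →L[ℂ] Ell2 K) ∘L x = θ.φ x ∘L (hu.W : Ell2 Λ →L[ℂ] Ell2 K) :=
      ext_dt fun s => by
        have := h1 (mul_mem hx (lam_mem_LA s))
        rw [θ.mul hx (lam_mem_LA s)] at this
        simpa [u, Iso.u] using this
    exact congrArg (fun T : Ell2 Λ →L[ℂ] Ell2 K => T ξ) this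
  have hW1 : hu.W (dt 1) = dt 1 := by simp
  refine ⟨(lam K).transport hu.W.symm, ⟨fun k => ?_, fun T hT s => ?_⟩, ⟨?_, fun w hw => ?_⟩⟩
  · obtain ⟨x, hx, e⟩ := θ.surj (lam_mem_LA k)
    rw [hp, mul_one, one_mul] at e
    have : (lam K).transport hu.W.symm k = x := by
      ext1 ξ
      simp [← e, ← hW hx]
    rwa [this]
  · have h1 : (hu.W : Ell2 Λ →L[ℂ] Ell2 K) ∘L T ∘L (hu.W.symm : Ell2 K →L[ℂ] Ell2 Λ) ∈ RA K :=
      fun k => by
        ext1 ξ
        have := congrArg hu.W (URep.comm_apply hT k (hu.W.symm ξ))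
        simpa using this
    ext1 ξ
    have := congrArg (fun S : Ell2 K →L[ℂ] Ell2 K => S (hu.W ξ))
      (LA_comm_RA (θ.mem (lam_mem_LA s)) h1)
    apply hu.W.injective
    simpa [← hW (lam_mem_LA s)] using this
  · simpa [hW1, Function.comp_def] using
      (orthonormal_dt (X := K)).comp_linearIsometryEquiv hu.W.symm
  · apply hu.W.injective
    rw [map_zero]
    refine eq_zero_of_inner_dt fun k => ?_
    have := hw k
    rw [← hu.W.inner_map_map] at this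
    simpa [hW1] using this

end Crest.Agent.N111
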