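import Crest.Agent.N111.VN.Reg

/-!
# Row 111, von Neumann toolbox VI: trace class operators and the abstract end game of (ii).
-/

set_option autoImplicit false

noncomputable section

namespace Crest.Agent.N111

open scoped InnerProductSpace ComplexConjugate ENNReal ComplexOrder
open ContinuousLinearMap Crest.OperatorAlgebra Filter Topology

variable {H : Type*} [NormedAddCommGroup H] [InnerProductSpace ℂ H]

/-- Hilbert-Schmidt bound -/
theorem norm_le_of_hs {Y : Type*} {S : Ell2 Y →L[ℂ] H} {C : ℝ} (hC : 0 ≤ C)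
    (h : ∀ F : Finset Y, ∑ y ∈ F, ‖S (dt y)‖ ^ 2 ≤ C ^ 2) : ‖S‖ ≤ C := by
  refine opNorm_le_bound _ hC fun ξ => ?_
  refine le_of_tendsto' (Tendsto.norm (hasSum_map_dt S ξ)) fun F => ?_
  refine (norm_sum_le _ _).trans ?_
  refine (pow_le_pow_iff_left₀ (by positivity) (by positivity) two_ne_zero).1 ?_
  simp only [norm_smul]
  refine (Finset.sum_mul_sq_le_sq_mul_sq F _ _).trans ?_
  rw [mul_pow, mul_comm]
  exact mul_le_mul (h F) (sum_normSq_le ξ F) (by positivity) (by positivity)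

variable [CompleteSpace H]

theorem isCompact_of_hs {Y : Type*} {S : Ell2 Y →L[ℂ] H} {B : ℝ}
    (h : ∀ F : Finset Y, ∑ y ∈ F, ‖S (dt y)‖ ^ 2 ≤ B) : IsCompactOperator S := by
  classical
  have hs : Summable fun y => ‖S (dt y)‖ ^ 2 := summable_of_sum_le (fun _ => sq_nonneg _) h
  let R : Finset Y → Ell2 Y →L[ℂ] H := fun F => ∑ y ∈ F, (innerSL ℂ (dt y)).smulRight (S (dt y))
  refine isCompactOperator_of_tendsto (l := atTop) (F := R) ?_ (Eventually.of_forall fun F => ?_)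
  · refine Metric.tendsto_nhds.2 fun ε hε => ?_
    obtain ⟨F₀, hF₀⟩ := hs.vanishing (gt_mem_nhds (by positivity : (0 : ℝ) < (ε / 2) ^ 2))
    filter_upwards [eventually_ge_atTop F₀] with F hF
    rw [dist_eq_norm']
    refine (norm_le_of_hs (half_pos hε).le fun G => ?_).trans_lt (half_lt_self hε)
    have e : ∀ y, (S - R F) (dt y) = if y ∈ F then 0 else S (dt y) := fun y => by
      simp only [R, sub_apply, sum_apply, smulRight_apply, innerSL_apply_apply, inner_dt, dt_apply]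
      split_ifs with hy
      · rw [Finset.sum_eq_single y (fun z _ hz => by simp [hz]) (fun h => absurd hy h)]; simp
      · rw [Finset.sum_eq_zero fun z hz => by simp [show z ≠ y from fun e => hy (e ▸ hz)]]; simp
    refine le_trans (le_of_eq ?_) (hF₀ (G \ F)
      (Finset.disjoint_left.2 fun y hy h0 => (Finset.mem_sdiff.1 hy).2 (hF h0))).le
    rw [Finset.sdiff_eq_filter, Finset.sum_filter]
    exact Finset.sum_congr rfl fun y _ => by rw [e]; split_ifs <;> simp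
  · refine (compactOperator (RingHom.id ℂ) (Ell2 Y) H).sum_mem fun y _ => ?_
    exact (isCompactOperator_of_locallyCompactSpace_dom (innerSL ℂ (dt y))).clm_comp
      (toSpanSingleton ℂ (S (dt y)))

theorem exists_sqrt {t : H →L[ℂ] H} (ht : 0 ≤ t) :
    ∃ r : H →L[ℂ] H, star r = r ∧ r * r = t ∧ ∀ x, ‖r x‖ ^ 2 = (⟪x, t x⟫_ℂ).re := by
  have h1 : star (CFC.sqrt t) = CFC.sqrt t := (IsSelfAdjoint.of_nonneg (CFC.sqrt_nonneg t)).star_eq
  have h2 : CFC.sqrt t * CFC.sqrt t = t := CFC.sqrt_mul_sqrt_self t ht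
  refine ⟨_, h1, h2, fun x => ?_⟩
  conv_rhs => rw [← h2, mul_apply_eq_comp, ← adjoint_inner_left, ← star_eq_adjoint, h1]
  exact (inner_self_eq_norm_sq (𝕜 := ℂ) _).symm

/-- a positive operator with vanishing diagonal on a total family is zero -/
theorem eq_zero_of_diag {Y : Type*} {t : Ell2 Y →L[ℂ] Ell2 Y} (ht : 0 ≤ t)
    (h : ∀ y, ⟪dt y, t (dt y)⟫_ℂ = 0) : t = 0 := by
  obtain ⟨r, -, h2, h3⟩ := exists_sqrt ht
  have : r = 0 := ext_dt fun y => by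
    have := h3 (dt y)
    rw [h, Complex.zero_re] at this
    simpa using this
  rw [← h2, this, mul_zero]

/-- the trace does not depend on the basis -/
theorem trace_le_of_basis {ι κ : Type*} {e : ι → H} {f : κ → H}
    (he : ∀ η, HasSum (fun i => ‖⟪e i, η⟫_ℂ‖ ^ 2) (‖η‖ ^ 2)) (hf : Orthonormal ℂ f)
    {t : H →L[ℂ] H} (ht : 0 ≤ t) {B : ℝ}
    (h : ∀ F : Finset ι, ∑ i ∈ F, (⟪e i, t (e i)⟫_ℂ).re ≤ B) (F : Finset κ) :
    ∑ k ∈ F, (⟪f k, t (f k)⟫_ℂ).re ≤ B := by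
  obtain ⟨r, h1, -, h3⟩ := exists_sqrt ht
  simp only [← h3] at h ⊢
  refine hasSum_le_of_sum_le (hasSum_sum fun k _ => he (r (f k))) fun G => ?_
  rw [Finset.sum_comm]
  refine le_trans (le_of_eq (Finset.sum_comm)) (le_trans (Finset.sum_le_sum fun i _ => ?_) (h G))
  refine le_trans (le_of_eq (Finset.sum_congr rfl fun k _ => ?_)) (hf.sum_inner_products_le _)
  rw [← adjoint_inner_left, ← star_eq_adjoint, h1, norm_inner_symm]

theorem IsReg.isCompact {K : Type*} [Group K] {σ : URep K H} {Ω : H} (h : IsReg σ Ω)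
    {t : H →L[ℂ] H} (ht : 0 ≤ t) {B : ℝ}
    (hB : ∀ F : Finset K, ∑ k ∈ F, (⟪σ k Ω, t (σ k Ω)⟫_ℂ).re ≤ B) : IsCompactOperator t := by
  obtain ⟨r, -, h2, h3⟩ := exists_sqrt ht
  have h1 : IsCompactOperator (r ∘L (h.W : Ell2 K →L[ℂ] H)) :=
    isCompact_of_hs (B := B) fun F => by simpa [h3] using hB F
  have h4 := (h1.comp_clm (h.W.symm : H →L[ℂ] Ell2 K)).clm_comp r
  have e : (t : H → H) = r ∘ (r ∘L (h.W : Ell2 K →L[ℂ] H)) ∘ (h.W.symm : H →L[ℂ] Ell2 K) := by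
    ext x; simp [← h2]
  rw [e]; exact h4

/-- a commuting family of self-adjoint operators containing a nonzero compact operator has a
finite dimensional joint eigenspace -/
theorem exists_joint_eigenspace {𝒜 : Set (H →L[ℂ] H)} (hsa : ∀ t ∈ 𝒜, star t = t)
    (hc : ∀ t ∈ 𝒜, ∀ t' ∈ 𝒜, Commute t t') {t : H →L[ℂ] H} (ht : t ∈ 𝒜) (h0 : t ≠ 0)
    (hk : IsCompactOperator t) : ∃ (χ : (H →L[ℂ] H) → ℂ) (V : Submodule ℂ H),
      FiniteDimensional ℂ V ∧ V ≠ ⊥ ∧ ∀ v, v ∈ V ↔ ∀ x ∈ 𝒜, x v = χ x • v := by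
  classical
  have hsym : ∀ x ∈ 𝒜, (x : H →ₗ[ℂ] H).IsSymmetric := fun x hx =>
    IsSelfAdjoint.isSymmetric (hsa x hx)
  obtain ⟨μ, hμ, hμ0⟩ : ∃ μ, Module.End.HasEigenvalue (t : Module.End ℂ H) μ ∧ μ ≠ 0 := by
    by_contra h
    push Not at h
    exact h0 ((eq_zero_of_forall_hasEigenvalue_eq_zero hk (hsym t ht)).1 h)
  set W := Module.End.eigenspace (t : Module.End ℂ H) μ with hW
  have hWf : FiniteDimensional ℂ W := finite_dimensional_eigenspace hk μ hμ0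
  have hWm : ∀ v, v ∈ W ↔ t v = μ • v := fun v => Module.End.mem_eigenspace_iff
  have hinv : ∀ x : 𝒜, ∀ v ∈ W, ((x : H →L[ℂ] H) : H →ₗ[ℂ] H) v ∈ W := fun x v hv => by
    rw [hWm] at hv ⊢
    have := congrArg (fun T : H →L[ℂ] H => T v) (hc t ht x x.2).eq
    simp only [mul_apply_eq_comp, hv, map_smul] at this
    exact this
  have htop := LinearMap.IsSymmetric.iSup_iInf_eq_top_of_commute (𝕜 := ℂ) (E := W)
    (T := fun x : 𝒜 => ((x : H →L[ℂ] H) : H →ₗ[ℂ] H).restrict (hinv x))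
    (fun x => (hsym x x.2).restrict_invariant _)
    (fun x y _ => LinearMap.ext fun v => Subtype.ext
      (congrArg (fun T : H →L[ℂ] H => T v) (hc x x.2 y y.2).eq))
  obtain ⟨χ, hχ⟩ : ∃ χ : 𝒜 → ℂ, ⨅ x : 𝒜, Module.End.eigenspace
      (((x : H →L[ℂ] H) : H →ₗ[ℂ] H).restrict (hinv x)) (χ x) ≠ ⊥ := by
    by_contra h
    push Not at h
    simp only [h, iSup_bot] at htop
    have : Nontrivial W := Submodule.nontrivial_iff_ne_bot.2 hμ
    exact bot_ne_top htop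
  obtain ⟨v, hv, hv0⟩ := (Submodule.ne_bot_iff _).1 hχ
  have hv1 : ∀ x : 𝒜, (x : H →L[ℂ] H) v = χ x • (v : H) := fun x =>
    congrArg Subtype.val (Module.End.mem_eigenspace_iff.1 ((Submodule.mem_iInf _).1 hv x))
  have hv2 : (v : H) ≠ 0 := fun h => hv0 (Subtype.ext h)
  let V : Submodule ℂ H :=
    ⨅ x : 𝒜, Module.End.eigenspace ((x : H →L[ℂ] H) : Module.End ℂ H) (χ x)
  have hV : ∀ w, w ∈ V ↔ ∀ x : 𝒜, (x : H →L[ℂ] H) w = χ x • w := fun w => by
    simp only [V, Submodule.mem_iInf, Module.End.mem_eigenspace_iff]; rfl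
  have hμχ : χ ⟨t, ht⟩ = μ :=
    smul_left_injective ℂ hv2 ((hv1 ⟨t, ht⟩).symm.trans ((hWm _).1 v.2))
  refine ⟨fun x => if h : x ∈ 𝒜 then χ ⟨x, h⟩ else 0, V,
    Submodule.finiteDimensional_of_le (S₂ := W) fun w hw => ?_,
    (Submodule.ne_bot_iff _).2 ⟨v, (hV _).2 hv1, hv2⟩, fun w => ?_⟩
  · rw [hWm, ← hμχ]; exact (hV w).1 hw ⟨t, ht⟩
  · rw [hV]
    exact ⟨fun h x hx => by simpa only [dif_pos hx] using h ⟨x, hx⟩,
      fun h x => by simpa only [dif_pos x.2] using h x x.2⟩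

/-- **the abstract end game of (ii)** -/
theorem iso_of_family {Λ Γ' : Type*} [Group Λ] [Group Γ'] {a : URep Λ H} {b : URep Γ' H} {Ω : H}
    (ha : IsReg a Ω) (hb : IsReg b Ω) (hab : ∀ γ, b γ ∈ a.comm) (hΛ : IsICC Λ) (hΓ : IsICC Γ')
    {𝒜 : Set (H →L[ℂ] H)} (hpos : ∀ t ∈ 𝒜, 0 ≤ t) (hc : ∀ t ∈ 𝒜, ∀ t' ∈ 𝒜, Commute t t')
    (hna : ∀ t ∈ 𝒜, ∀ s, a s⁻¹ * t * a s ∈ 𝒜) (hnb : ∀ t ∈ 𝒜, ∀ γ, b γ⁻¹ * t * b γ ∈ 𝒜)
    {t : H →L[ℂ] H} (ht : t ∈ 𝒜) (h0 : t ≠ 0) {B : ℝ}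
    (hB : ∀ F : Finset Λ, ∑ k ∈ F, (⟪a k Ω, t (a k Ω)⟫_ℂ).re ≤ B) : Nonempty (Λ ≃* Γ') := by
  have hsa : ∀ t ∈ 𝒜, star t = t := fun t ht => (IsSelfAdjoint.of_nonneg (hpos t ht)).star_eq
  obtain ⟨χ, V, hfd, hV, hm⟩ := exists_joint_eigenspace hsa hc ht h0 (ha.isCompact (hpos t ht) hB)
  refine iso_of_subspace ha hb hab hΛ hΓ V hV fun s γ => ?_
  -- the translate is the joint eigenspace of another character
  have key : ∀ x ∈ 𝒜, ∀ v ∈ V, x (a s (b γ v))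
      = χ (b γ⁻¹ * (a s⁻¹ * x * a s) * b γ) • a s (b γ v) := fun x hx v hv => by
    rw [← map_smul, ← map_smul, ← (hm v).1 hv _ (hnb _ (hna x hx s) γ)]
    simp
  by_cases hcase : ∀ x ∈ 𝒜, χ (b γ⁻¹ * (a s⁻¹ * x * a s) * b γ) = χ x
  · exact Or.inl fun v hv => (hm _).2 fun x hx => by rw [key x hx v hv, hcase x hx]
  · push Not at hcase
    obtain ⟨x, hx, hne⟩ := hcase
    refine Or.inr fun v hv w hw => ?_
    have hsym : ∀ y z, ⟪x y, z⟫_ℂ = ⟪y, x z⟫_ℂ := fun y z => by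
      rw [← adjoint_inner_right, ← star_eq_adjoint, hsa x hx]
    by_cases hw0 : w = 0
    · simp [hw0]
    have hreal : conj (χ x) = χ x := by
      have := hsym w w
      rw [(hm w).1 hw x hx, inner_smul_left, inner_smul_right] at this
      exact mul_right_cancel₀ (inner_self_ne_zero.2 hw0) this
    have := hsym w (a s (b γ v))
    rw [(hm w).1 hw x hx, key x hx v hv, inner_smul_left, inner_smul_right, hreal] at this
    by_contra h
    exact hne (mul_right_cancel₀ h this).symm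

end Crest.Agent.N111
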