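import Crest.Agent.N111.VN.Kap
import Crest.Agent.N111.Grp.ICC

/-!
# Row 111, von Neumann toolbox IV: a `*`-isomorphism `L(Λ) ≅ p L(K) p` scales the trace.
-/

set_option autoImplicit false

noncomputable section

namespace Crest.Agent.N111

open scoped InnerProductSpace ComplexConjugate ENNReal ComplexOrder
open ContinuousLinearMap Crest.OperatorAlgebra Filter Topology

variable {Λ K : Type*} [Group Λ] [Group K]

/-! ### conjugation invariant vectors -/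

theorem adr_fix (hK : IsICC K) {ξ : Ell2 K} (h : ξ ∈ (adr K).fix) : ξ = ξ 1 • dt 1 := by
  refine l2_ext fun g => ?_
  by_cases hg : g = 1
  · simp [hg]
  · rw [l2_smul_apply, dt_ne hg, mul_zero]
    refine icc_ell2_eq_zero hK ⊤ ξ (fun k _ x => ?_) hg
    conv_rhs => rw [← h k⁻¹]
    simp

theorem dt_one_mem_fix : dt 1 ∈ (adr K).fix := fun g => by simp [adr_eq]

theorem adr_P (hK : IsICC K) (ξ : Ell2 K) : (adr K).P ξ = ξ 1 • dt 1 := by
  rw [adr_fix hK ((adr K).P_mem ξ), ← inner_dt, (adr K).inner_P_of_mem dt_one_mem_fix, inner_dt]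

/-- convex combination of conjugates -/
def cavg {H L ι : Type*} [NormedAddCommGroup H] [InnerProductSpace ℂ H] [Group L] [Fintype ι]
    (σ : URep L H) (w : ι → ℝ) (g : ι → L) (x : H →L[ℂ] H) : H →L[ℂ] H :=
  ∑ i, (w i : ℂ) • (σ (g i) * x * σ (g i)⁻¹)

theorem norm_cavg_le {H L ι : Type*} [NormedAddCommGroup H] [InnerProductSpace ℂ H] [Group L]
    [Fintype ι] (σ : URep L H) {w : ι → ℝ} (g : ι → L) (hw0 : ∀ i, 0 ≤ w i) (hw1 : ∑ i, w i = 1)
    (x : H →L[ℂ] H) : ‖cavg σ w g x‖ ≤ ‖x‖ := by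
  refine (norm_sum_le _ _).trans ?_
  calc _ ≤ ∑ i, w i * ‖x‖ := Finset.sum_le_sum fun i _ => by
        rw [norm_smul, Complex.norm_real, Real.norm_of_nonneg (hw0 i)]
        refine mul_le_mul_of_nonneg_left (opNorm_le_bound _ (norm_nonneg _) fun v => ?_) (hw0 i)
        simpa using x.le_opNorm (σ (g i)⁻¹ v)
    _ = ‖x‖ := by rw [← Finset.sum_mul, hw1, one_mul]

theorem cavg_mem_LA {ι : Type*} [Fintype ι] (w : ι → ℝ) (g : ι → K) {x : Ell2 K →L[ℂ] Ell2 K}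
    (hx : x ∈ LA K) : cavg (lam K) w g x ∈ LA K :=
  sum_mem fun _ _ => SMulMemClass.smul_mem _ (mul_mem (mul_mem (lam_mem_LA _) hx) (lam_mem_LA _))

/-- averaging conjugates in an ICC group -/
theorem exists_cavg (hK : IsICC K) {x : Ell2 K →L[ℂ] Ell2 K} (hx : x ∈ LA K) {ε : ℝ}
    (hε : 0 < ε) : ∃ (ι : Type) (_ : Fintype ι) (w : ι → ℝ) (g : ι → K), (∀ i, 0 ≤ w i) ∧
      ∑ i, w i = 1 ∧ ‖(cavg (lam K) w g x - tau x • 1) (dt 1)‖ < ε := by
  obtain ⟨ι, _, w, g, h0, h1, h⟩ := (adr K).exists_avg (x (dt 1)) hε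
  refine ⟨ι, inferInstance, w, g, h0, h1, ?_⟩
  rw [adr_P hK] at h
  simpa only [cavg, sub_apply, sum_apply, smul_apply, conj_hat_LA hx, one_apply_eq_self, tau]
    using h

/-- `L(K)` is a factor: an element commuting with the left translations is a scalar -/
theorem scalar_of_central (hK : IsICC K) {x : Ell2 K →L[ℂ] Ell2 K} (hx : x ∈ LA K)
    (hx' : x ∈ RA K) : x = tau x • 1 := by
  refine LA_ext hx (SMulMemClass.smul_mem _ (one_mem _)) (adr_fix hK fun g => ?_)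
  rw [adr_eq, URep.comm_apply hx, URep.comm_apply hx']; simp

/-! ### isomorphisms onto a corner -/

/-- a `*`-isomorphism of `L(Λ)` onto the corner `p L(K) p` -/
structure Iso (Λ K : Type*) [Group Λ] [Group K] where
  p : Ell2 K →L[ℂ] Ell2 K
  p_mem : p ∈ LA K
  p_mul_p : p * p = p
  star_p : star p = p
  φ : (Ell2 Λ →L[ℂ] Ell2 Λ) → Ell2 K →L[ℂ] Ell2 K
  mem : ∀ {x}, x ∈ LA Λ → φ x ∈ LA K
  p_mul : ∀ {x}, x ∈ LA Λ → p * φ x = φ x
  mul_p : ∀ {x}, x ∈ LA Λ → φ x * p = φ x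
  surj : ∀ {y}, y ∈ LA K → ∃ x ∈ LA Λ, φ x = p * y * p
  inj : ∀ {x y}, x ∈ LA Λ → y ∈ LA Λ → φ x = φ y → x = y
  add : ∀ {x y}, x ∈ LA Λ → y ∈ LA Λ → φ (x + y) = φ x + φ y
  mul : ∀ {x y}, x ∈ LA Λ → y ∈ LA Λ → φ (x * y) = φ x * φ y
  smul : ∀ (c : ℂ) {x}, x ∈ LA Λ → φ (c • x) = c • φ x
  map_star : ∀ {x}, x ∈ LA Λ → φ (star x) = star (φ x)

/-- the isomorphism onto a corner from the frozen definition -/
def Iso.ofCorner {p : Ell2 K →L[ℂ] Ell2 K} (hp : p ∈ groupVonNeumann K) (h1 : p * p = p)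
    (h2 : star p = p) {φ : (Ell2 Λ →L[ℂ] Ell2 Λ) → Ell2 K →L[ℂ] Ell2 K}
    (h : IsStarAlgIso (groupVonNeumann Λ) (corner (groupVonNeumann K) p) φ) : Iso Λ K where
  p := p
  p_mem := mem_groupVonNeumann.1 hp
  p_mul_p := h1
  star_p := h2
  φ := φ
  mem hx := by
    obtain ⟨m, hm, e⟩ := h.1.mapsTo (mem_groupVonNeumann.2 hx)
    rw [e]
    exact mul_mem (mul_mem (mem_groupVonNeumann.1 hp) (mem_groupVonNeumann.1 hm))
      (mem_groupVonNeumann.1 hp)
  p_mul hx := by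
    obtain ⟨m, -, e⟩ := h.1.mapsTo (mem_groupVonNeumann.2 hx)
    rw [e, ← mul_assoc, ← mul_assoc, h1]
  mul_p hx := by
    obtain ⟨m, -, e⟩ := h.1.mapsTo (mem_groupVonNeumann.2 hx)
    rw [e, mul_assoc, h1]
  surj hy := by
    obtain ⟨x, hx, e⟩ := h.1.surjOn ⟨_, mem_groupVonNeumann.2 hy, rfl⟩
    exact ⟨x, mem_groupVonNeumann.1 hx, e⟩
  inj hx hy e := h.1.injOn (mem_groupVonNeumann.2 hx) (mem_groupVonNeumann.2 hy) e
  add hx hy := (h.2.1 _ (mem_groupVonNeumann.2 hx) _ (mem_groupVonNeumann.2 hy)).1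
  mul hx hy := (h.2.1 _ (mem_groupVonNeumann.2 hx) _ (mem_groupVonNeumann.2 hy)).2
  smul c _ hx := h.2.2.1 c _ (mem_groupVonNeumann.2 hx)
  map_star hx := h.2.2.2 _ (mem_groupVonNeumann.2 hx)

theorem corner_one (K : Type*) [Group K] : corner (groupVonNeumann K) 1 = groupVonNeumann K := by
  ext x; simp [corner]

/-- the isomorphism onto the whole algebra from the frozen definition -/
def Iso.ofIso {φ : (Ell2 Λ →L[ℂ] Ell2 Λ) → Ell2 K →L[ℂ] Ell2 K}
    (h : IsStarAlgIso (groupVonNeumann Λ) (groupVonNeumann K) φ) : Iso Λ K :=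
  Iso.ofCorner (p := 1) (mem_groupVonNeumann.2 (one_mem _)) (mul_one _) (star_one _)
    (by rwa [corner_one])

theorem Iso.ofIso_p {φ : (Ell2 Λ →L[ℂ] Ell2 Λ) → Ell2 K →L[ℂ] Ell2 K}
    (h : IsStarAlgIso (groupVonNeumann Λ) (groupVonNeumann K) φ) : (Iso.ofIso h).p = 1 := rfl

namespace Iso

variable (θ : Iso Λ K) {x y : Ell2 Λ →L[ℂ] Ell2 Λ}

theorem zero : θ.φ 0 = 0 := by simpa using θ.smul 0 (zero_mem (LA Λ))

theorem one : θ.φ 1 = θ.p := by
  obtain ⟨x, hx, e⟩ := θ.surj (one_mem (LA K))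
  rw [mul_one, θ.p_mul_p] at e
  rw [← θ.mul_p (one_mem _), ← e, ← θ.mul (one_mem _) hx, one_mul]

theorem sub (hx : x ∈ LA Λ) (hy : y ∈ LA Λ) : θ.φ (x - y) = θ.φ x - θ.φ y := by
  rw [eq_sub_iff_add_eq, ← θ.add (sub_mem hx hy) hy, sub_add_cancel]

theorem sum {ι : Type*} (s : Finset ι) {x : ι → Ell2 Λ →L[ℂ] Ell2 Λ} (hx : ∀ i ∈ s, x i ∈ LA Λ) :
    θ.φ (∑ i ∈ s, x i) = ∑ i ∈ s, θ.φ (x i) := by
  classical
  induction s using Finset.induction_on with
  | empty => simpa using θ.zero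
  | insert a s ha ih =>
    rw [Finset.sum_insert ha, Finset.sum_insert ha, θ.add (hx a (by simp))
      (sum_mem fun i hi => hx i (by simp [hi])), ih fun i hi => hx i (by simp [hi])]

theorem eq_zero (hx : x ∈ LA Λ) (h : θ.φ x = 0) : x = 0 :=
  θ.inj hx (zero_mem _) (h.trans θ.zero.symm)

/-- the bundled homomorphism -/
def hom : LA Λ →⋆ₙₐ[ℂ] (Ell2 K →L[ℂ] Ell2 K) where
  toFun x := θ.φ x
  map_smul' c x := θ.smul c x.2
  map_zero' := θ.zero
  map_add' x y := θ.add x.2 y.2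
  map_mul' x y := θ.mul x.2 y.2
  map_star' x := θ.map_star x.2

theorem norm_φ (hx : x ∈ LA Λ) : ‖θ.φ x‖ = ‖x‖ := by
  have := (rho Λ).isClosed_comm
  exact NonUnitalStarAlgHom.norm_map θ.hom (fun a b h => Subtype.ext (θ.inj a.2 b.2 h)) ⟨x, hx⟩

theorem p_ne_zero : θ.p ≠ 0 := fun h => by
  have := θ.eq_zero (one_mem _) (θ.one.trans h)
  simpa using congrArg tau this

theorem p_hat_ne_zero : θ.p (dt 1) ≠ 0 := fun h => θ.p_ne_zero (LA_ext θ.p_mem (zero_mem _) h)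

/-- the trace of `p` -/
def t : ℝ := ‖θ.p (dt 1)‖ ^ 2

theorem t_pos : 0 < θ.t := pow_pos (norm_pos_iff.2 θ.p_hat_ne_zero) 2

theorem tau_p : tau θ.p = θ.t := tau_proj θ.p_mul_p θ.star_p

theorem norm_p_le : ‖θ.p‖ ≤ 1 := by
  rw [← θ.one, θ.norm_φ (one_mem _)]; exact norm_id_le

theorem t_le_one : θ.t ≤ 1 :=
  pow_le_one₀ (norm_nonneg _) ((norm_hat_le _).trans θ.norm_p_le)

theorem p_eq_one (h : 1 ≤ θ.t) : θ.p = 1 :=
  proj_eq_one θ.p_mem θ.p_mul_p θ.star_p (by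
    by_contra h'
    have := pow_lt_one₀ (norm_nonneg _) (not_le.1 h') two_ne_zero
    exact absurd h (not_le.2 this))

/-- the corner is weakly closed -/
theorem exists_eq_of_wtends {α : Type*} {l : Filter α} [l.NeBot] {x : α → Ell2 Λ →L[ℂ] Ell2 Λ}
    (hx : ∀ a, x a ∈ LA Λ) {b : Ell2 K →L[ℂ] Ell2 K} (h : WTends l (fun a => θ.φ (x a)) b) :
    ∃ a ∈ LA Λ, θ.φ a = b := by
  obtain ⟨a, ha, e⟩ := θ.surj ((rho K).mem_comm_of_wtends h
    (Eventually.of_forall fun a => θ.mem (hx a)))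
  refine ⟨a, ha, e.trans (WTends.unique (l := l) ?_ h)⟩
  simpa only [θ.p_mul (hx _), θ.mul_p (hx _)] using (h.const_mul θ.p).mul_const θ.p

/-- normality: `τ ∘ φ` is `L²`-continuous on the unit ball -/
theorem tau_cont {ε : ℝ} (hε : 0 < ε) : ∃ δ > 0, ∀ x ∈ LA Λ, ‖x‖ ≤ 1 → ‖x (dt 1)‖ ≤ δ →
    ‖tau (θ.φ x)‖ ≤ ε := by
  by_contra hcon
  push Not at hcon
  choose x hx hx1 hx2 hx3 using fun k : ℕ => hcon ((1 / 4) ^ k) (by positivity)
  obtain ⟨b, -, hb⟩ := exists_wtends (hyperfilter ℕ) (T := fun k => θ.φ (x k)) (C := 1)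
    (Eventually.of_forall fun k => (θ.norm_φ (hx k)).trans_le (hx1 k))
  obtain ⟨a, ha, rfl⟩ := θ.exists_eq_of_wtends hx hb
  have hε' : ε ≤ ‖tau (θ.φ a)‖ := by
    have := (hb (dt 1) (dt 1)).norm
    simp only [← tau_eq_inner] at this
    exact ge_of_tendsto this (Eventually.of_forall fun k => (hx3 k).le)
  have key : ∀ N : ℕ, ‖a (dt 1)‖ ≤ ‖a‖ * (2 * (1 / 2) ^ N) := by
    intro N
    obtain ⟨e, he, -, he2, he3⟩ := (rho Λ).egorov (y := fun k => (2 : ℂ) ^ (k + N) • x (k + N))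
      (fun k => SMulMemClass.smul_mem _ (hx _)) (dt 1) (η := 2 * (1 / 2) ^ N) (by positivity)
      (fun M => by
        calc _ ≤ ∑ k ∈ Finset.range M, (1 / 2 : ℝ) ^ k * ((1 / 2) ^ N) ^ 2 :=
              Finset.sum_le_sum fun k _ => by
                have h1 : ‖((2 : ℂ) ^ (k + N) • x (k + N)) (dt 1)‖ ≤ (1 / 2) ^ k * (1 / 2) ^ N := by
                  rw [smul_apply, norm_smul, norm_pow, Complex.norm_two, ← pow_add]
                  refine (mul_le_mul_of_nonneg_left (hx2 _) (by positivity)).trans_eq ?_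
                  rw [← mul_pow]; norm_num
                refine (pow_le_pow_left₀ (norm_nonneg _) h1 2).trans ?_
                rw [mul_pow, sq ((1 / 2 : ℝ) ^ k), mul_assoc]
                refine mul_le_mul_of_nonneg_left ?_ (by positivity)
                exact mul_le_of_le_one_left (by positivity) (pow_le_one₀ (by norm_num) (by norm_num))
          _ ≤ _ := by
              rw [← Finset.sum_mul, mul_pow]
              refine mul_le_mul_of_nonneg_right ((sum_le_hasSum _ (fun _ _ => by positivity)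
                hasSum_geometric_two).trans (by norm_num)) (by positivity))
    have h0 : θ.φ a * θ.φ e = 0 := by
      refine WTends.unique (l := (hyperfilter ℕ : Filter ℕ)) (hb.mul_const (θ.φ e)) fun w v => ?_
      rw [zero_apply, inner_zero_right]
      refine squeeze_zero_norm' (a := fun k => ‖w‖ * ((1 / 2) ^ k * ‖v‖)) ?_ ?_
      · filter_upwards [Nat.hyperfilter_le_atTop (eventually_ge_atTop N)] with k hk
        obtain ⟨k, rfl⟩ := Nat.exists_eq_add_of_le' hk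
        refine (norm_inner_le_norm _ _).trans (mul_le_mul_of_nonneg_left ?_ (norm_nonneg _))
        refine (le_opNorm _ _).trans (mul_le_mul_of_nonneg_right ?_ (norm_nonneg _))
        have h3 := he3 k
        rw [smul_mul_assoc, norm_smul, norm_pow, Complex.norm_two] at h3
        rw [← θ.mul (hx _) he, θ.norm_φ (mul_mem (hx _) he), one_div, inv_pow,
          ← one_div, le_div_iff₀' (by positivity)]
        exact h3
      · have := ((tendsto_pow_atTop_nhds_zero_of_lt_one (r := (1 / 2 : ℝ)) (by norm_num)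
          (by norm_num)).mul_const ‖v‖).const_mul ‖w‖
        simpa using this.mono_left Nat.hyperfilter_le_atTop
    rw [← θ.mul ha he] at h0
    have h1 : a (dt 1) = a ((1 - e) (dt 1)) := by
      rw [← mul_apply_eq_comp, mul_sub, θ.eq_zero (mul_mem ha he) h0, mul_one, sub_zero]
    rw [h1]
    exact (a.le_opNorm _).trans (by gcongr)
  have h0 : ‖a (dt 1)‖ ≤ 0 := by
    have := ((tendsto_pow_atTop_nhds_zero_of_lt_one (r := (1 / 2 : ℝ)) (by norm_num)
      (by norm_num)).const_mul 2).const_mul ‖a‖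
    simpa using ge_of_tendsto' this key
  rw [LA_ext ha (zero_mem _) (norm_le_zero_iff.1 h0), θ.zero] at hε'
  simp only [tau_zero, norm_zero] at hε'
  linarith

theorem tau_conj (hx : x ∈ LA Λ) (g : Λ) : tau (θ.φ (lam Λ g * x * lam Λ g⁻¹)) = tau (θ.φ x) := by
  have h1 := mul_mem (lam_mem_LA g) hx
  rw [θ.mul h1 (lam_mem_LA _), tau_mul_comm_LA (θ.mem h1) (θ.mem (lam_mem_LA _)),
    ← θ.mul (lam_mem_LA _) h1, ← mul_assoc, URep.inv_mul_self, one_mul]

theorem tau_cavg {ι : Type*} [Fintype ι] {w : ι → ℝ} (hw : ∑ i, w i = 1) (g : ι → Λ)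
    (hx : x ∈ LA Λ) : tau (θ.φ (cavg (lam Λ) w g x)) = tau (θ.φ x) := by
  have h : ∀ i, lam Λ (g i) * x * lam Λ (g i)⁻¹ ∈ LA Λ := fun i =>
    mul_mem (mul_mem (lam_mem_LA _) hx) (lam_mem_LA _)
  rw [cavg, θ.sum _ fun i _ => SMulMemClass.smul_mem _ (h i), tau_sum]
  simp only [θ.smul _ (h _), tau_smul, θ.tau_conj hx]
  rw [← Finset.sum_mul, ← Complex.ofReal_sum, hw]; simp

theorem tau_eq_zero (hΛ : IsICC Λ) (hx : x ∈ LA Λ) (h1 : ‖x‖ ≤ 1) (h0 : tau x = 0) :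
    tau (θ.φ x) = 0 := by
  refine norm_le_zero_iff.1 (le_of_forall_pos_le_add fun ε hε => ?_)
  obtain ⟨δ, hδ, h⟩ := θ.tau_cont hε
  obtain ⟨ι, _, w, g, hw0, hw1, hw⟩ := exists_cavg hΛ hx hδ
  rw [h0, zero_smul, sub_zero] at hw
  rw [zero_add, ← θ.tau_cavg hw1 g hx]
  exact h _ (cavg_mem_LA w g hx) ((norm_cavg_le _ g hw0 hw1 x).trans h1) hw.le

/-- **the isomorphism scales the trace** -/
theorem tau_φ (hΛ : IsICC Λ) (hx : x ∈ LA Λ) : tau (θ.φ x) = θ.t * tau x := by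
  set y := x - tau x • (1 : Ell2 Λ →L[ℂ] Ell2 Λ) with hy
  have h1 : tau x • (1 : Ell2 Λ →L[ℂ] Ell2 Λ) ∈ LA Λ := SMulMemClass.smul_mem _ (one_mem _)
  have hyL : y ∈ LA Λ := sub_mem hx h1
  set c : ℝ := (‖y‖ + 1)⁻¹
  have hc : 0 < c := by positivity
  have h2 := θ.tau_eq_zero hΛ (x := (c : ℂ) • y) (SMulMemClass.smul_mem _ hyL)
    (by
      rw [norm_smul, Complex.norm_real, Real.norm_of_nonneg hc.le, inv_mul_le_iff₀ (by positivity)]
      linarith)
    (by rw [tau_smul, hy, tau_sub, tau_smul, tau_one, mul_one, sub_self, mul_zero])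
  rw [θ.smul _ hyL, tau_smul, mul_eq_zero, or_iff_right (by exact_mod_cast hc.ne'), hy,
    θ.sub hx h1, θ.smul _ (one_mem _), θ.one, tau_sub, tau_smul, θ.tau_p, sub_eq_zero] at h2
  rw [h2, mul_comm]

theorem inner_hat (hΛ : IsICC Λ) (hx : x ∈ LA Λ) (hy : y ∈ LA Λ) :
    ⟪θ.φ x (dt 1), θ.φ y (dt 1)⟫_ℂ = θ.t * ⟪x (dt 1), y (dt 1)⟫_ℂ := by
  rw [← tau_star_mul, ← tau_star_mul, ← θ.map_star hx, ← θ.mul (star_mem hx) hy,
    θ.tau_φ hΛ (mul_mem (star_mem hx) hy)]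

theorem norm_hat (hΛ : IsICC Λ) (hx : x ∈ LA Λ) : ‖θ.φ x (dt 1)‖ = √θ.t * ‖x (dt 1)‖ := by
  have h := θ.inner_hat hΛ hx hx
  rw [← tau_star_mul, ← tau_star_mul, tau_star_mul_self, tau_star_mul_self] at h
  have h' : ‖θ.φ x (dt 1)‖ ^ 2 = θ.t * ‖x (dt 1)‖ ^ 2 := by exact_mod_cast h
  refine (pow_left_inj₀ (norm_nonneg _) (by positivity) two_ne_zero).1 ?_
  rw [h', mul_pow, Real.sq_sqrt θ.t_pos.le]

/-- the image of the group elements -/
def u (s : Λ) : Ell2 K →L[ℂ] Ell2 K := θ.φ (lam Λ s)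

theorem u_mem (s : Λ) : θ.u s ∈ LA K := θ.mem (lam_mem_LA s)
theorem u_one : θ.u 1 = θ.p := by rw [u, map_one, θ.one]
theorem u_mul (s r : Λ) : θ.u (s * r) = θ.u s * θ.u r := by
  rw [u, map_mul, θ.mul (lam_mem_LA _) (lam_mem_LA _)]; rfl
theorem star_u (s : Λ) : star (θ.u s) = θ.u s⁻¹ := by
  rw [u, ← θ.map_star (lam_mem_LA _), URep.star_apply]; rfl
theorem p_mul_u (s : Λ) : θ.p * θ.u s = θ.u s := θ.p_mul (lam_mem_LA s)
theorem u_mul_p (s : Λ) : θ.u s * θ.p = θ.u s := θ.mul_p (lam_mem_LA s)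
theorem norm_u_le (s : Λ) : ‖θ.u s‖ ≤ 1 := (θ.norm_φ (lam_mem_LA s)).trans_le ((lam Λ).norm_le s)

theorem tau_u (hΛ : IsICC Λ) {s : Λ} (hs : s ≠ 1) : tau (θ.u s) = 0 := by
  rw [u, θ.tau_φ hΛ (lam_mem_LA s), tau_lam_of_ne hs, mul_zero]

theorem inner_u_hat (hΛ : IsICC Λ) (s r : Λ) :
    ⟪θ.u s (dt 1), θ.u r (dt 1)⟫_ℂ = θ.t * dt r s := by
  rw [u, u, θ.inner_hat hΛ (lam_mem_LA s) (lam_mem_LA r)]; simp

theorem φ_span {s : Finset Λ} {c : Λ → ℂ} :
    θ.φ (∑ g ∈ s, c g • lam Λ g) = ∑ g ∈ s, c g • θ.u g := by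
  rw [θ.sum _ fun g _ => SMulMemClass.smul_mem _ (lam_mem_LA g)]
  simp only [θ.smul _ (lam_mem_LA _), u]

/-- Fourier expansion in the image -/
theorem hasSum_hat (hΛ : IsICC Λ) (hx : x ∈ LA Λ) :
    HasSum (fun s => x (dt 1) s • θ.u s (dt 1)) (θ.φ x (dt 1)) := by
  have h := (tendsto_iff_norm_sub_tendsto_zero.1 (hasSum_dt (x (dt 1)))).const_mul √θ.t
  rw [mul_zero] at h
  refine tendsto_iff_norm_sub_tendsto_zero.2 (h.congr fun s => ?_)
  have hs := span_lam_le (URep.mem_span.2 ⟨s, x (dt 1), rfl⟩)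
  rw [← sum_lam_hat, ← sub_apply, ← θ.norm_hat hΛ (sub_mem hs hx), θ.sub hs hx, φ_span]
  simp

/-- an operator commuting with the image of the group commutes with the whole corner -/
theorem comm_φ_of_comm_u (hΛ : IsICC Λ) {T : Ell2 K →L[ℂ] Ell2 K}
    (hT : ∀ s, θ.u s * T = T * θ.u s) (hx : x ∈ LA Λ) : θ.φ x * T = T * θ.φ x := by
  -- strong convergence along Kaplansky approximants
  have main : ∀ {x}, x ∈ LA Λ → ‖x‖ ≤ 1 → θ.φ x * T = T * θ.φ x := by
    intro x hx h1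
    choose w hw hw1 hw2 using fun n : ℕ =>
      exists_span_contraction hx h1 (Nat.one_div_pos_of_nat (α := ℝ) (n := n))
    have hc : ∀ n, θ.φ (w n) * T = T * θ.φ (w n) := fun n => by
      obtain ⟨s, c, e⟩ := URep.mem_span.1 (hw n)
      rw [e, φ_span, Finset.sum_mul, Finset.mul_sum]
      simp only [smul_mul_assoc, mul_smul_comm, hT]
    obtain ⟨b, -, hb⟩ := exists_wtends (hyperfilter ℕ) (T := fun k => θ.φ (w k)) (C := 1)
      (Eventually.of_forall fun k => (θ.norm_φ (span_lam_le (hw k))).trans_le (hw1 k))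
    have hbL : b ∈ LA K := (rho K).mem_comm_of_wtends hb
      (Eventually.of_forall fun a => θ.mem (span_lam_le (hw a)))
    have e : b = θ.φ x := by
      refine LA_ext hbL (θ.mem hx) (ext_inner_left ℂ fun v => tendsto_nhds_unique (hb v _) ?_)
      refine Tendsto.inner tendsto_const_nhds (tendsto_iff_norm_sub_tendsto_zero.2 ?_)
      refine squeeze_zero (fun _ => norm_nonneg _) (fun n => ?_)
        (g := fun n : ℕ => √θ.t * (1 / ((n : ℝ) + 1))) ?_
      · rw [← sub_apply, ← θ.sub (span_lam_le (hw n)) hx,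
          θ.norm_hat hΛ (sub_mem (span_lam_le (hw n)) hx)]
        exact mul_le_mul_of_nonneg_left (hw2 n).le (Real.sqrt_nonneg _)
      · simpa using (tendsto_one_div_add_atTop_nhds_zero_nat.const_mul √θ.t).mono_left
          Nat.hyperfilter_le_atTop
    rw [← e]
    exact WTends.unique (hb.mul_const T) (by simpa only [hc] using hb.const_mul T)
  set c : ℝ := (‖x‖ + 1)⁻¹
  have hc : 0 < c := by positivity
  have := main (x := (c : ℂ) • x) (SMulMemClass.smul_mem _ hx) (by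
    rw [norm_smul, Complex.norm_real, Real.norm_of_nonneg hc.le, inv_mul_le_iff₀ (by positivity)]
    linarith)
  rw [θ.smul _ hx, smul_mul_assoc, mul_smul_comm] at this
  exact smul_right_injective _ (by exact_mod_cast hc.ne') this

end Iso

end Crest.Agent.N111
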