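import Crest.Agent.N111.VN.Iso

/-!
# Row 111, von Neumann toolbox V: regular representations given abstractly, and the end game
"two commuting regular representations permuting a finite dimensional subspace are isomorphic".
-/

set_option autoImplicit false

noncomputable section

namespace Crest.Agent.N111

open scoped InnerProductSpace ComplexConjugate ENNReal ComplexOrder
open ContinuousLinearMap Crest.OperatorAlgebra Filter Topology

variable {H : Type*} [NormedAddCommGroup H] [InnerProductSpace ℂ H]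

/-- an orthogonal family of vectors of constant length correlated with a fixed vector is finite -/
theorem finite_of_orth {ι : Type*} {e : ι → H} (he : Pairwise fun i j => ⟪e i, e j⟫_ℂ = 0) {r c : ℝ}
    (hr : ∀ i, ‖e i‖ = r) (hc : 0 < c) {w : H} (hw : ∀ i, c ≤ ‖⟪e i, w⟫_ℂ‖) : Finite ι := by
  rcases isEmpty_or_nonempty ι with h | ⟨⟨i₀⟩⟩
  · infer_instance
  have hr0 : 0 < r := by
    refine (hr i₀ ▸ norm_nonneg (e i₀) : 0 ≤ r).lt_of_ne fun h => ?_
    have := hw i₀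
    rw [norm_eq_zero.1 ((hr i₀).trans h.symm), inner_zero_left, norm_zero] at this
    linarith
  have ho : Orthonormal ℂ fun i => ((r⁻¹ : ℝ) : ℂ) • e i :=
    ⟨fun i => by
      rw [norm_smul, hr, Complex.norm_real, Real.norm_of_nonneg (by positivity)]
      exact inv_mul_cancel₀ hr0.ne', fun i j h => by
      simp only [inner_smul_left, inner_smul_right, he h, mul_zero]⟩
  have h := (ho.inner_products_summable w).tendsto_cofinite_zero.eventually
    (gt_mem_nhds (by positivity : (0 : ℝ) < (r⁻¹ * c) ^ 2))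
  rw [eventually_cofinite] at h
  refine Set.finite_univ_iff.1 (h.subset fun i _ => ?_)
  simp only [Set.mem_ofPred_eq, not_lt, inner_smul_left, norm_mul, Complex.conj_ofReal,
    Complex.norm_real, Real.norm_of_nonneg (inv_pos.2 hr0).le]
  gcongr
  exact hw i

variable [CompleteSpace H] {K : Type*} [Group K]

theorem starProjection_comm (U : Submodule ℂ H) [U.HasOrthogonalProjection] {T : H →L[ℂ] H}
    (h1 : ∀ v ∈ U, T v ∈ U) (h2 : ∀ v ∈ U, star T v ∈ U) :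
    T * U.starProjection = U.starProjection * T := by
  ext1 v
  refine (Submodule.eq_starProjection_of_mem_of_inner_eq_zero
    (h1 _ (U.starProjection_apply_mem v)) fun w hw => ?_).symm
  change ⟪T v - T _, w⟫_ℂ = 0
  rw [← map_sub, ← adjoint_inner_right]
  exact U.starProjection_inner_eq_zero v _ (h2 w hw)

/-- the orbit of `Ω` is an orthonormal basis -/
structure IsReg (σ : URep K H) (Ω : H) : Prop where
  on : Orthonormal ℂ fun k => σ k Ω
  tot : ∀ w, (∀ k, ⟪σ k Ω, w⟫_ℂ = 0) → w = 0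

theorem isReg_lam : IsReg (lam K) (dt 1) :=
  ⟨by simpa using orthonormal_dt, fun w h => eq_zero_of_inner_dt (by simpa using h)⟩

namespace IsReg

variable {σ : URep K H} {Ω : H} (h : IsReg σ Ω)
include h

/-- the unitary onto `ℓ²(K)` -/
def W : Ell2 K ≃ₗᵢ[ℂ] H := synE h.on h.tot

@[simp] theorem W_dt (k : K) : h.W (dt k) = σ k Ω := synE_dt _ _ k

theorem W_symm_apply (w : H) (k : K) : h.W.symm w k = ⟪σ k Ω, w⟫_ℂ := synE_symm_apply _ _ w k

theorem W_lam (k : K) (ξ : Ell2 K) : h.W (lam K k ξ) = σ k (h.W ξ) := by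
  have : (h.W : Ell2 K →L[ℂ] H) ∘L lam K k = σ k ∘L (h.W : Ell2 K →L[ℂ] H) :=
    ext_dt fun x => by simp
  exact congrArg (fun T : Ell2 K →L[ℂ] H => T ξ) this

omit [CompleteSpace H] in
theorem norm_Ω : ‖Ω‖ = 1 := by simpa using h.on.1 1

theorem hasSum_inner (η ζ : H) : HasSum (fun k => ⟪η, σ k Ω⟫_ℂ * ⟪σ k Ω, ζ⟫_ℂ) ⟪η, ζ⟫_ℂ := by
  have := N111.hasSum_inner (h.W.symm η) (h.W.symm ζ)
  simpa only [h.W_symm_apply, inner_conj_symm, LinearIsometryEquiv.inner_map_map] using this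

theorem hasSum_normSq (η : H) : HasSum (fun k => ‖⟪σ k Ω, η⟫_ℂ‖ ^ 2) (‖η‖ ^ 2) := by
  have := N111.hasSum_normSq (h.W.symm η)
  simpa only [h.W_symm_apply, LinearIsometryEquiv.norm_map] using this

theorem ext {E : Type*} [NormedAddCommGroup E] [NormedSpace ℂ E] {S T : H →L[ℂ] E}
    (e : ∀ k, S (σ k Ω) = T (σ k Ω)) : S = T := by
  have : S ∘L (h.W : Ell2 K →L[ℂ] H) = T ∘L (h.W : Ell2 K →L[ℂ] H) := ext_dt fun x => by simp [e]
  ext1 v
  simpa using congrArg (fun A : Ell2 K →L[ℂ] E => A (h.W.symm v)) this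

theorem ext_comm {S T : H →L[ℂ] H} (hS : S ∈ σ.comm) (hT : T ∈ σ.comm) (e : S Ω = T Ω) : S = T :=
  h.ext fun k => by rw [← σ.comm_apply hS, ← σ.comm_apply hT, e]

/-- `Ω` is a trace vector for the commutant -/
theorem trace {S T : H →L[ℂ] H} (hS : S ∈ σ.comm) (hT : T ∈ σ.comm) :
    ⟪Ω, S (T Ω)⟫_ℂ = ⟪Ω, T (S Ω)⟫_ℂ := by
  have key : ∀ {S T : H →L[ℂ] H}, S ∈ σ.comm →
      HasSum (fun k => ⟪σ k⁻¹ Ω, S Ω⟫_ℂ * ⟪σ k Ω, T Ω⟫_ℂ) ⟪Ω, S (T Ω)⟫_ℂ := by
    intro S T hS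
    have := h.hasSum_inner (adjoint S Ω) (T Ω)
    simpa only [adjoint_inner_left, ← σ.comm_apply hS, σ.inner_right _ Ω] using this
  refine (key hS).unique ?_
  have := ((Equiv.inv K).hasSum_iff).2 (key (T := S) hT)
  simpa only [Function.comp_def, Equiv.inv_apply, inv_inv, mul_comm] using this

theorem tendsto_coef (η : H) (k₀ : K) :
    Tendsto (fun k => ‖⟪η, σ (k * k₀) Ω⟫_ℂ‖) cofinite (𝓝 0) := by
  have h1 := (h.hasSum_normSq η).summable.tendsto_cofinite_zero.sqrt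
  simp only [Real.sqrt_sq (norm_nonneg _), Real.sqrt_zero] at h1
  simpa only [Function.comp_def, norm_inner_symm η] using
    h1.comp (mul_left_injective k₀).tendsto_cofinite

/-- the stabiliser of a finite dimensional subspace is finite -/
theorem finite_stab (V : Submodule ℂ H) [FiniteDimensional ℂ V] (hV : V ≠ ⊥) :
    Set.Finite {k | ∀ v ∈ V, σ k v ∈ V} := by
  obtain ⟨v, hv, hv0⟩ := V.ne_bot_iff.1 hV
  obtain ⟨k₀, hk₀⟩ : ∃ k₀, ⟪σ k₀ Ω, v⟫_ℂ ≠ 0 := by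
    by_contra hc
    push Not at hc
    exact hv0 (h.tot v hc)
  let e := stdOrthonormalBasis ℂ V
  have h1 : Tendsto (fun k => ∑ i, ‖v‖ * ‖⟪(e i : H), σ (k * k₀) Ω⟫_ℂ‖) cofinite (𝓝 0) := by
    simpa using tendsto_finsetSum Finset.univ fun i _ =>
      (h.tendsto_coef (e i) k₀).const_mul ‖v‖
  have h2 := h1.eventually (gt_mem_nhds (norm_pos_iff.2 hk₀))
  rw [eventually_cofinite] at h2
  refine h2.subset fun k hk => not_lt.2 ?_
  have e1 : σ k v = ∑ i, ⟪(e i : H), σ k v⟫_ℂ • (e i : H) := by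
    simpa using congrArg Subtype.val (e.sum_repr' ⟨σ k v, hk v hv⟩).symm
  rw [← σ.inner_map_map k, ← σ.mul_apply, norm_inner_symm, e1, sum_inner]
  refine (norm_sum_le _ _).trans (Finset.sum_le_sum fun i _ => ?_)
  rw [inner_smul_left, norm_mul, RCLike.norm_conj]
  gcongr
  have e2 : ‖(e i : H)‖ = 1 := e.orthonormal.1 i
  simpa [e2] using norm_inner_le_norm (𝕜 := ℂ) (e i : H) (σ k v)

end IsReg

section two

variable {Λ Γ' : Type*} [Group Λ] [Group Γ'] {a : URep Λ H} {b : URep Γ' H} {Ω : H}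

/-- irreducibility under a finite index subgroup -/
theorem IsReg.scalar (ha : IsReg a Ω) (hb : IsReg b Ω) (hab : ∀ γ, b γ ∈ a.comm)
    (hΓ : IsICC Γ') (S : Subgroup Γ') [S.FiniteIndex] {E : H →L[ℂ] H} (hE : E ∈ a.comm)
    (hS : ∀ k ∈ S, b k * E = E * b k) : ∃ c : ℂ, E = c • 1 := by
  have key : ∀ γ, γ ≠ 1 → hb.W.symm (E Ω) γ = 0 := fun γ hγ => by
    refine icc_ell2_eq_zero hΓ S _ (fun k hk g => ?_) hγ
    have e1 := ha.trace (hab k) (mul_mem (hab (g⁻¹ * k⁻¹)) hE)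
    have e2 : E (b k Ω) = b k (E Ω) := (congrArg (fun T : H →L[ℂ] H => T Ω) (hS k hk)).symm
    simp only [mul_apply_eq_comp, e2, ← b.mul_apply, inv_mul_cancel_right] at e1
    rw [hb.W_symm_apply, hb.W_symm_apply, b.inner_left, b.inner_left, ← e1]
    simp [mul_assoc]
  refine ⟨hb.W.symm (E Ω) 1, ha.ext_comm hE (SMulMemClass.smul_mem _ (one_mem _)) ?_⟩
  have : hb.W.symm (E Ω) = hb.W.symm (E Ω) 1 • dt 1 := l2_ext fun γ => by
    by_cases hγ : γ = 1
    · simp [hγ]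
    · simp [key γ hγ, dt_ne hγ]
  simpa using congrArg hb.W this

/-- the joint stabiliser -/
def jstab (hab : ∀ γ, b γ ∈ a.comm) (V : Submodule ℂ H) (hV : V ≠ ⊥)
    (hD : ∀ s γ, (∀ v ∈ V, a s (b γ v) ∈ V) ∨ ∀ v ∈ V, ∀ w ∈ V, ⟪w, a s (b γ v)⟫_ℂ = 0) :
    Subgroup (Λ × Γ') where
  carrier := {p | ∀ v ∈ V, a p.1 (b p.2 v) ∈ V}
  one_mem' v hv := by simpa using hv
  mul_mem' {p q} hp hq v hv := by
    have := hp _ (hq v hv)
    rwa [← a.comm_apply (hab _), ← a.mul_apply, ← b.mul_apply] at this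
  inv_mem' {p} hp := by
    refine (hD p.1⁻¹ p.2⁻¹).resolve_right fun hc => ?_
    obtain ⟨v, hv, hv0⟩ := V.ne_bot_iff.1 hV
    have := hc _ (hp v hv) v hv
    rw [← a.comm_apply (hab _), a.inv_apply_apply, b.inv_apply_apply] at this
    exact hv0 (inner_self_eq_zero.1 this)

theorem jstab_trans (ha : IsReg a Ω) (hb : IsReg b Ω) (hab : ∀ γ, b γ ∈ a.comm)
    (hΓ : IsICC Γ') (V : Submodule ℂ H) (hV : V ≠ ⊥)
    (hD : ∀ s γ, (∀ v ∈ V, a s (b γ v) ∈ V) ∨ ∀ v ∈ V, ∀ w ∈ V, ⟪w, a s (b γ v)⟫_ℂ = 0)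
    (γ : Γ') : ∃ s, ∀ v ∈ V, a s (b γ v) ∈ V := by
  let S : Subgroup Γ' := (jstab hab V hV hD).map (MonoidHom.snd _ _)
  have hS : ∀ {γ}, γ ∈ S ↔ ∃ s, ∀ v ∈ V, a s (b γ v) ∈ V :=
    ⟨by rintro ⟨p, hp, rfl⟩; exact ⟨p.1, hp⟩, fun ⟨s, hs⟩ => ⟨(s, _), hs, rfl⟩⟩
  let O : Set H := {x | ∃ s, ∃ v ∈ V, x = a s v}
  let U : Submodule ℂ H := (Submodule.span ℂ O).topologicalClosure
  have : CompleteSpace U := (Submodule.isClosed_topologicalClosure _).completeSpace_coe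
  have hOU : ∀ s, ∀ v ∈ V, a s v ∈ U := fun s v hv =>
    Submodule.le_topologicalClosure _ (Submodule.subset_span ⟨s, v, hv, rfl⟩)
  have hind : ∀ W : Submodule ℂ H, IsClosed (W : Set H) → (∀ s, ∀ v ∈ V, a s v ∈ W) → U ≤ W :=
    fun W hW h => Submodule.topologicalClosure_minimal _
      (Submodule.span_le.2 (by rintro _ ⟨s, v, hv, rfl⟩; exact h s v hv)) hW
  have hinv : ∀ T : H →L[ℂ] H, (∀ s, ∀ v ∈ V, T (a s v) ∈ U) → ∀ x ∈ U, T x ∈ U := fun T hT =>
    hind (U.comap (T : H →ₗ[ℂ] H))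
      ((Submodule.isClosed_topologicalClosure _).preimage T.continuous) hT
  have haU : ∀ k, ∀ x ∈ U, a k x ∈ U := fun k =>
    hinv _ fun s v hv => by rw [← a.mul_apply]; exact hOU _ v hv
  have hbU : ∀ k ∈ S, ∀ x ∈ U, b k x ∈ U := fun k hk => hinv _ fun s v hv => by
    obtain ⟨r, hr⟩ := hS.1 hk
    have := hOU (s * r⁻¹) _ (hr v hv)
    rwa [← a.mul_apply, inv_mul_cancel_right, a.comm_apply (hab _)] at this
  have horth : ∀ k, k ∉ S → ∀ x ∈ U, ∀ y ∈ U, ⟪y, b k x⟫_ℂ = 0 := by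
    intro k hk x hx y hy
    have h1 : ∀ s, ∀ v ∈ V, b k (a s v) ∈ Uᗮ := fun s v hv => by
      refine Submodule.orthogonal_le (hind (ℂ ∙ b k (a s v))ᗮ (Submodule.isClosed_orthogonal _)
        fun r w hw => ?_) (Submodule.le_orthogonal_orthogonal _ (Submodule.mem_span_singleton_self _))
      rw [Submodule.mem_orthogonal_singleton_iff_inner_left, a.inner_left, ← a.comm_apply (hab _),
        ← a.mul_apply]
      exact ((hD _ k).resolve_left fun h => hk (hS.2 ⟨_, h⟩)) v hv w hw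
    exact hind (Uᗮ.comap (b k : H →ₗ[ℂ] H))
      ((Submodule.isClosed_orthogonal _).preimage (b k).continuous) h1 hx y hy
  set E := U.starProjection with hEdef
  have hE : E ∈ a.comm := fun k =>
    starProjection_comm U (haU k) (by rw [a.star_apply]; exact haU _)
  have hEb : ∀ k ∈ S, b k * E = E * b k := fun k hk =>
    starProjection_comm U (hbU k hk) (by rw [b.star_apply]; exact hbU _ (S.inv_mem hk))
  obtain ⟨v, hv, hv0⟩ := V.ne_bot_iff.1 hV
  have hvU : v ∈ U := by simpa using hOU 1 v hv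
  have hEv : E v = v := Submodule.starProjection_eq_self_iff.2 hvU
  have hE0 : E Ω ≠ 0 := fun h0 => by
    rw [ha.ext_comm hE (zero_mem _) h0] at hEv
    exact hv0 hEv.symm
  have hEE : ∀ x, ⟪E x, x⟫_ℂ = ((‖E x‖ ^ 2 : ℝ) : ℂ) := fun x => by
    have := U.starProjection_inner_eq_zero x _ (U.starProjection_apply_mem x)
    rw [inner_sub_left, sub_eq_zero] at this
    rw [← inner_conj_symm, this, inner_self_eq_norm_sq_to_K]; simp [hEdef]
  have htr : ∀ k, ‖E (b k Ω)‖ ^ 2 = ‖E Ω‖ ^ 2 := fun k => by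
    have e1 := ha.trace (hab k⁻¹) (mul_mem hE (hab k))
    simp only [mul_apply_eq_comp, b.apply_inv_apply] at e1
    rw [← b.inner_left, ← inner_conj_symm, hEE, ← inner_conj_symm, hEE] at e1
    simpa only [Complex.conj_ofReal, Complex.ofReal_inj] using e1
  have hfin : Finite (Γ' ⧸ S) := by
    refine finite_of_orth (e := fun q : Γ' ⧸ S => b q.out (E (b q.out⁻¹ Ω))) (r := ‖E Ω‖)
      (fun q q' hq => ?_) (fun q => ?_) (pow_pos (norm_pos_iff.2 hE0) 2) (w := Ω) fun q => ?_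
    · simp only
      rw [b.inner_left, ← b.mul_apply]
      refine horth _ (fun hm => hq ?_) _ (U.starProjection_apply_mem _) _
        (U.starProjection_apply_mem _)
      rw [← q.out_eq', ← q'.out_eq']
      exact QuotientGroup.eq.2 hm
    · rw [b.norm_map]
      exact (pow_left_inj₀ (norm_nonneg _) (norm_nonneg _) two_ne_zero).1 (htr _)
    · rw [b.inner_left, hEE, htr, Complex.norm_real, Real.norm_of_nonneg (sq_nonneg _)]
  have : S.FiniteIndex := Subgroup.finiteIndex_of_finite_quotient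
  obtain ⟨c, hc⟩ := ha.scalar hb hab hΓ S hE hEb
  have hc1 : c = 1 := by
    rw [hc, smul_apply, one_apply_eq_self] at hEv
    exact smul_left_injective ℂ hv0 (hEv.trans (one_smul ℂ v).symm)
  by_contra hγ
  have hall : b γ v ∈ U := Submodule.starProjection_eq_self_iff.1 (by
    rw [← hEdef, hc, hc1]; simp)
  have := horth γ (fun h => hγ (hS.1 h)) v hvU _ hall
  exact hv0 (inner_self_eq_zero.1 (by rwa [b.inner_map_map] at this))

theorem jstab_free (ha : IsReg a Ω) (hab : ∀ γ, b γ ∈ a.comm) (hΛ : IsICC Λ) (V : Submodule ℂ H)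
    [FiniteDimensional ℂ V] (hV : V ≠ ⊥)
    (hD : ∀ s γ, (∀ v ∈ V, a s (b γ v) ∈ V) ∨ ∀ v ∈ V, ∀ w ∈ V, ⟪w, a s (b γ v)⟫_ℂ = 0)
    (ht : ∀ s, ∃ γ, ∀ v ∈ V, a s (b γ v) ∈ V) {s : Λ} (hs : ∀ v ∈ V, a s v ∈ V) : s = 1 := by
  let Z := jstab hab V hV hD
  refine icc_eq_one_of_finite hΛ ⊤ (ha.finite_stab V hV) (fun k _ r hr => ?_) hs
  obtain ⟨γ, hγ⟩ := ht k
  have h1 : (k, γ) ∈ Z := hγ
  have h2 : (r, 1) ∈ Z := fun v hv => by simpa using hr v hv
  have h3 := Z.mul_mem (Z.mul_mem h1 h2) (Z.inv_mem h1)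
  intro v hv
  simpa using h3 v hv

theorem iso_of_subspace (ha : IsReg a Ω) (hb : IsReg b Ω) (hab : ∀ γ, b γ ∈ a.comm)
    (hΛ : IsICC Λ) (hΓ : IsICC Γ') (V : Submodule ℂ H) [FiniteDimensional ℂ V] (hV : V ≠ ⊥)
    (hD : ∀ s γ, (∀ v ∈ V, a s (b γ v) ∈ V) ∨ ∀ v ∈ V, ∀ w ∈ V, ⟪w, a s (b γ v)⟫_ℂ = 0) :
    Nonempty (Λ ≃* Γ') := by
  have hba : ∀ s, a s ∈ b.comm := fun s γ => (hab γ s).symm
  have sw : ∀ s γ v, b γ (a s v) = a s (b γ v) := fun s γ v => b.comm_apply (hba s) γ v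
  have hD' : ∀ γ s, (∀ v ∈ V, b γ (a s v) ∈ V) ∨ ∀ v ∈ V, ∀ w ∈ V, ⟪w, b γ (a s v)⟫_ℂ = 0 := by
    simpa only [sw] using fun γ s => hD s γ
  have t1 := jstab_trans ha hb hab hΓ V hV hD
  have t2 := jstab_trans hb ha hba hΛ V hV hD'
  let Z := jstab hab V hV hD
  have b1 : Function.Bijective ((MonoidHom.fst Λ Γ').comp Z.subtype) := by
    refine ⟨(injective_iff_map_eq_one _).2 ?_, fun s => ?_⟩
    · rintro ⟨⟨s, γ⟩, hp⟩ (rfl : s = 1)
      obtain rfl : γ = 1 := jstab_free hb hba hΓ V hV hD' (by simpa only [sw] using t1)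
        fun v hv => by simpa using hp v hv
      rfl
    · obtain ⟨γ, hγ⟩ := t2 s
      exact ⟨⟨(s, γ), fun v hv => sw s γ v ▸ hγ v hv⟩, rfl⟩
  have b2 : Function.Bijective ((MonoidHom.snd Λ Γ').comp Z.subtype) := by
    refine ⟨(injective_iff_map_eq_one _).2 ?_, fun γ => ?_⟩
    · rintro ⟨⟨s, γ⟩, hp⟩ (rfl : γ = 1)
      obtain rfl : s = 1 := jstab_free ha hab hΛ V hV hD (by simpa only [sw] using t2)
        fun v hv => by simpa using hp v hv
      rfl
    · obtain ⟨s, hs⟩ := t1 γ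
      exact ⟨⟨(s, γ), hs⟩, rfl⟩
  exact ⟨(MulEquiv.ofBijective _ b1).symm.trans (MulEquiv.ofBijective _ b2)⟩

end two

end Crest.Agent.N111
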